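import Crest.Agent.R316.Alg.Residue

/-!
# R316 / Alg / Basis  (task A1)
The quotient by a monic system is free with basis the monomials with all exponents `< m`;
base change for norms and traces; norms vanish at solutions; characteristic polynomials.

Hint for linear independence: the functional
`τ(h) = ∑_κ coeff_{m-1+mκ} (h * g^κ)` (finite sum by degree) kills the ideal and is
anti-triangular on monomials of the box.
-/

set_option autoImplicit false

namespace Crest.Agent.R316

open MvPolynomial

variable {R : Type*} [CommRing R] {n m : ℕ} {g : Fin n → MvPolynomial (Fin n) R}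

/-- the exponent of a box element -/
noncomputable def bexp (β : Fin n → Fin m) : Fin n →₀ ℕ :=
  Finsupp.equivFunOnFinite.symm fun i => (β i : ℕ)

@[simp] theorem bexp_apply (β : Fin n → Fin m) (i : Fin n) : bexp β i = (β i : ℕ) := rfl

theorem prod_X_pow_eq (β : Fin n → Fin m) :
    (∏ i, X i ^ (β i : ℕ) : MvPolynomial (Fin n) R) = monomial (bexp β) 1 := by
  rw [monomial_eq, Finsupp.prod_fintype _ _ (by simp)]
  simp

theorem mk_rel (i : Fin n) : Ideal.Quotient.mk (mideal m g) (X i ^ m) =
    Ideal.Quotient.mk (mideal m g) (g i) := by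
  rw [Ideal.Quotient.mk_eq_mk_iff_sub_mem]
  exact Ideal.subset_span ⟨i, rfl⟩

theorem mk_monomial_mem_span (hg : ∀ i, (g i).totalDegree < m) (d : ℕ) :
    ∀ s : Fin n →₀ ℕ, s.degree < d → ∀ a : R,
      Ideal.Quotient.mk (mideal m g) (monomial s a) ∈ Submodule.span R
        (Set.range fun β : Fin n → Fin m =>
          Ideal.Quotient.mk (mideal m g) (∏ i, X i ^ (β i : ℕ))) := by
  classical
  induction d with
  | zero => intro s hs; omega
  | succ d ih =>
    intro s hs a
    by_cases hbox : ∀ i, s i < m
    · have : (monomial s a : MvPolynomial (Fin n) R) =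
          a • ∏ i, X i ^ (((fun i => ⟨s i, hbox i⟩ : Fin n → Fin m) i : Fin m) : ℕ) := by
        rw [prod_X_pow_eq, smul_monomial, smul_eq_mul, mul_one,
          show bexp (fun i => ⟨s i, hbox i⟩ : Fin n → Fin m) = s from by ext; rfl]
      rw [this]
      have h2 : Ideal.Quotient.mk (mideal m g)
          (a • ∏ i, X i ^ (((fun i => ⟨s i, hbox i⟩ : Fin n → Fin m) i : Fin m) : ℕ)) =
          a • Ideal.Quotient.mk (mideal m g)
          (∏ i, X i ^ (((fun i => ⟨s i, hbox i⟩ : Fin n → Fin m) i : Fin m) : ℕ)) := rfl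
      rw [h2]
      exact Submodule.smul_mem _ _ (Submodule.subset_span ⟨_, rfl⟩)
    · push Not at hbox
      obtain ⟨i, hi⟩ := hbox
      have hm : 0 < m := by have := hg i; omega
      set t : Fin n →₀ ℕ := s - Finsupp.single i m with ht
      have hst : s = t + Finsupp.single i m := by
        ext j
        by_cases hj : j = i
        · subst hj; simp [ht]; omega
        · simp [ht, Ne.symm hj]
      have hdeg : s.degree = t.degree + m := by
        rw [hst, map_add, Finsupp.degree_single]
      have h1 : (monomial s a : MvPolynomial (Fin n) R) = monomial t a * X i ^ m := by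
        rw [X_pow_eq_monomial, monomial_mul, mul_one, ← hst]
      rw [h1, map_mul, mk_rel, ← map_mul]
      rw [(monomial t a * g i).as_sum, map_sum]
      refine Submodule.sum_mem _ fun u hu => ?_
      refine ih u ?_ _
      by_contra hc
      have hdl : DegLT ((m - 1) + 1) (g i) := degLT_of_totalDegree_lt (by have := hg i; omega)
      have hdm : DegLT (t.degree + 1 + (m - 1)) (monomial t a * g i) :=
        (degLT_monomial t a).mul hdl
      exact (mem_support_iff.mp hu) (hdm u (by omega))

theorem mtau_pair (hg : ∀ i, (g i).totalDegree < m) (β γ : Fin n → Fin m)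
    (hle : (bexp β).degree ≤ (bexp γ).degree) :
    mtau m g (monomial (bexp β + (texp m 0 - bexp γ)) 1) = if β = γ then 1 else 0 := by
  classical
  have hγ : ∀ i, (γ i : ℕ) ≤ m - 1 := fun i => by have := (γ i).2; omega
  have hdeg : (texp m 0 - bexp γ).degree + (bexp γ).degree = n * (m - 1) := by
    rw [← map_add, tsub_add_cancel_of_le, texp_degree]
    · simp
    · intro i; simpa using hγ i
  rw [mtau_of_degLT_succ hg]
  · rw [coeff_monomial]
    congr 1
    rw [eq_iff_iff]
    constructor
    · intro h
      ext i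
      have := DFunLike.congr_fun h i
      simp at this
      have h1 := hγ i
      have h2 := (β i).2
      omega
    · rintro rfl
      ext i
      simp
      have h1 := hγ i
      omega
  · refine (degLT_monomial _ _).mono ?_
    rw [map_add]
    omega

theorem mbasis_linearIndependent (hg : ∀ i, (g i).totalDegree < m) :
    LinearIndependent R (fun β : Fin n → Fin m =>
      Ideal.Quotient.mk (mideal m g) (∏ i, X i ^ (β i : ℕ))) := by
  classical
  rw [Fintype.linearIndependent_iff]
  intro c hc
  by_contra hne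
  push Not at hne
  have hmem : (∑ β : Fin n → Fin m, C (c β) * monomial (bexp β) 1) ∈ mideal m g := by
    rw [← Ideal.Quotient.eq_zero_iff_mem, ← hc, map_sum]
    refine Finset.sum_congr rfl fun β _ => ?_
    rw [prod_X_pow_eq, ← smul_eq_C_mul]
    rfl
  -- choose a maximal element of the support
  obtain ⟨γ, hγ, hmax⟩ := Finset.exists_max_image
    (Finset.univ.filter fun β : Fin n → Fin m => c β ≠ 0) (fun β => (bexp β).degree)
    (by obtain ⟨β, hβ⟩ := hne; exact ⟨β, by simpa using hβ⟩)
  have h0 := mtau_of_mem hg (Ideal.mul_mem_right (monomial (texp m 0 - bexp γ) 1) _ hmem)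
  rw [Finset.sum_mul] at h0
  have h1 : mtau m g (∑ β : Fin n → Fin m,
      C (c β) * monomial (bexp β) 1 * monomial (texp m 0 - bexp γ) 1) =
      ∑ β : Fin n → Fin m, c β * mtau m g (monomial (bexp β + (texp m 0 - bexp γ)) 1) := by
    rw [← mtauL_apply hg, map_sum]
    refine Finset.sum_congr rfl fun β _ => ?_
    rw [mtauL_apply, mul_assoc, mtau_C_mul hg, monomial_mul, mul_one]
  rw [h1, Finset.sum_eq_single γ] at h0
  · rw [mtau_pair hg γ γ le_rfl, if_pos rfl, mul_one] at h0
    exact (Finset.mem_filter.mp hγ).2 h0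
  · intro β _ hβ
    by_cases hcβ : c β = 0
    · rw [hcβ, zero_mul]
    · rw [mtau_pair hg β γ (hmax β (by simpa using hcβ)), if_neg hβ, mul_zero]
  · intro h; exact absurd (Finset.mem_univ _) h

/-- monomial basis of the quotient. -/
theorem exists_mbasis (hg : ∀ i, (g i).totalDegree < m) :
    ∃ b : Module.Basis (Fin n → Fin m) R (MQ m g),
      ∀ β, b β = Ideal.Quotient.mk (mideal m g) (∏ i, X i ^ (β i : ℕ)) := by
  refine ⟨Module.Basis.mk (mbasis_linearIndependent hg) ?_, fun β => ?_⟩
  · intro q _
    obtain ⟨p, rfl⟩ := Ideal.Quotient.mk_surjective q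
    rw [p.as_sum, map_sum]
    exact Submodule.sum_mem _ fun s _ =>
      mk_monomial_mem_span hg (s.degree + 1) s (Nat.lt_succ_self _) _
  · rw [Module.Basis.mk_apply]

noncomputable def mbasis (hg : ∀ i, (g i).totalDegree < m) :
    Module.Basis (Fin n → Fin m) R (MQ m g) := (exists_mbasis hg).choose

theorem mbasis_apply (hg : ∀ i, (g i).totalDegree < m) (β : Fin n → Fin m) :
    mbasis hg β = Ideal.Quotient.mk (mideal m g) (∏ i, X i ^ (β i : ℕ)) :=
  (exists_mbasis hg).choose_spec β

theorem mQ_free (hg : ∀ i, (g i).totalDegree < m) : Module.Free R (MQ m g) :=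
  Module.Free.of_basis (mbasis hg)

theorem mQ_finite (hg : ∀ i, (g i).totalDegree < m) : Module.Finite R (MQ m g) :=
  Module.Finite.of_basis (mbasis hg)

/-- multiplication matrix of a polynomial in the monomial basis -/
noncomputable def mmat (hg : ∀ i, (g i).totalDegree < m) (G : MvPolynomial (Fin n) R) :
    Matrix (Fin n → Fin m) (Fin n → Fin m) R :=
  Algebra.leftMulMatrix (mbasis hg) (Ideal.Quotient.mk (mideal m g) G)

theorem mnorm_eq_det (hg : ∀ i, (g i).totalDegree < m) (G : MvPolynomial (Fin n) R) :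
    mnorm m g G = (mmat hg G).det :=
  Algebra.norm_eq_matrix_det (mbasis hg) _

theorem mtrace_eq (hg : ∀ i, (g i).totalDegree < m) (G : MvPolynomial (Fin n) R) :
    mtrace m g G = (mmat hg G).trace :=
  Algebra.trace_eq_matrix_trace (mbasis hg) _

theorem mmat_mul (hg : ∀ i, (g i).totalDegree < m) (G H : MvPolynomial (Fin n) R) :
    mmat hg (G * H) = mmat hg G * mmat hg H := by
  unfold mmat
  rw [map_mul, map_mul]

theorem mmat_sub (hg : ∀ i, (g i).totalDegree < m) (G H : MvPolynomial (Fin n) R) :
    mmat hg (G - H) = mmat hg G - mmat hg H := by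
  unfold mmat
  rw [map_sub, map_sub]

theorem mmat_C (hg : ∀ i, (g i).totalDegree < m) (a : R) :
    mmat hg (C a) = Matrix.scalar _ a := by
  unfold mmat
  have : Ideal.Quotient.mk (mideal m g) (C a) = algebraMap R (MQ m g) a := rfl
  rw [this, AlgHom.commutes]
  rfl

/-- characterisation of the columns of the multiplication matrix -/
theorem mk_mul_mbasis (hg : ∀ i, (g i).totalDegree < m) (G : MvPolynomial (Fin n) R)
    (β : Fin n → Fin m) :
    Ideal.Quotient.mk (mideal m g) G * mbasis hg β = ∑ α, mmat hg G α β • mbasis hg α := by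
  have := (mbasis hg).sum_repr (Ideal.Quotient.mk (mideal m g) G * mbasis hg β)
  rw [← this]
  refine Finset.sum_congr rfl fun α _ => ?_
  rw [mmat, Algebra.leftMulMatrix_eq_repr_mul]

theorem mmat_of_mk (hg : ∀ i, (g i).totalDegree < m) (G : MvPolynomial (Fin n) R)
    (M : Matrix (Fin n → Fin m) (Fin n → Fin m) R)
    (hM : ∀ β, Ideal.Quotient.mk (mideal m g) G * mbasis hg β = ∑ α, M α β • mbasis hg α) :
    mmat hg G = M := by
  ext α β
  rw [mmat, Algebra.leftMulMatrix_eq_repr_mul, hM β, map_sum, Finset.sum_apply']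
  simp [Finsupp.single_apply]

theorem totalDegree_map_lt {S : Type*} [CommRing S] (φ : R →+* S)
    (hg : ∀ i, (g i).totalDegree < m) : ∀ i, (map φ (g i)).totalDegree < m :=
  fun i => lt_of_le_of_lt (Finset.sup_mono (support_map_subset φ (g i))) (hg i)

/-- base change of the multiplication matrix -/
theorem mmat_map {S : Type*} [CommRing S] (φ : R →+* S)
    (hg : ∀ i, (g i).totalDegree < m) (G : MvPolynomial (Fin n) R) :
    mmat (totalDegree_map_lt φ hg) (map φ G) = (mmat hg G).map φ := by
  refine mmat_of_mk _ _ _ fun β => ?_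
  have hle : mideal m g ≤ (mideal m (fun i => map φ (g i))).comap (map φ) := by
    unfold mideal
    rw [Ideal.span_le]
    rintro _ ⟨i, rfl⟩
    rw [SetLike.mem_coe, Ideal.mem_comap]
    refine Ideal.subset_span ⟨i, ?_⟩
    simp
  let Φ : MQ m g →+* MQ m (fun i => map φ (g i)) := Ideal.quotientMap _ (map φ) hle
  have hΦ : ∀ p, Φ (Ideal.Quotient.mk (mideal m g) p) = Ideal.Quotient.mk _ (map φ p) :=
    fun p => Ideal.quotientMap_mk
  have hΦs : ∀ (a : R) (q : MQ m g), Φ (a • q) = φ a • Φ q := by
    intro a q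
    obtain ⟨p, rfl⟩ := Ideal.Quotient.mk_surjective q
    have h1 : a • Ideal.Quotient.mk (mideal m g) p = Ideal.Quotient.mk (mideal m g) (a • p) := rfl
    rw [h1, hΦ, hΦ, smul_eq_C_mul, map_mul, map_C, ← smul_eq_C_mul]
    rfl
  have hb : ∀ α, Φ (mbasis hg α) = mbasis (totalDegree_map_lt φ hg) α := by
    intro α
    rw [mbasis_apply, mbasis_apply, hΦ]
    simp
  have := congrArg Φ (mk_mul_mbasis hg G β)
  rw [map_mul, hΦ, hb, map_sum] at this
  rw [this]
  refine Finset.sum_congr rfl fun α _ => ?_
  rw [hΦs, hb, Matrix.map_apply]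

theorem mnorm_map {S : Type*} [CommRing S] (φ : R →+* S)
    (hg : ∀ i, (g i).totalDegree < m) (G : MvPolynomial (Fin n) R) :
    mnorm m (fun i => map φ (g i)) (map φ G) = φ (mnorm m g G) := by
  rw [mnorm_eq_det (totalDegree_map_lt φ hg), mnorm_eq_det hg, mmat_map, RingHom.map_det]
  rfl

theorem mtrace_map {S : Type*} [CommRing S] (φ : R →+* S)
    (hg : ∀ i, (g i).totalDegree < m) (G : MvPolynomial (Fin n) R) :
    mtrace m (fun i => map φ (g i)) (map φ G) = φ (mtrace m g G) := by
  rw [mtrace_eq (totalDegree_map_lt φ hg), mtrace_eq hg, mmat_map]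
  exact (AddMonoidHom.map_trace φ.toAddMonoidHom _).symm

theorem mjac_map {S : Type*} [CommRing S] (φ : R →+* S) :
    mjac m (fun i => map φ (g i)) = map φ (mjac m g) := by
  unfold mjac
  rw [RingHom.map_det]
  congr 1
  ext1 i j
  rw [RingHom.mapMatrix_apply, Matrix.map_apply, Matrix.of_apply, Matrix.of_apply,
    ← pderiv_map]
  simp

theorem mnorm_mul (G H : MvPolynomial (Fin n) R) :
    mnorm m g (G * H) = mnorm m g G * mnorm m g H := by
  unfold mnorm
  rw [map_mul, map_mul]

theorem mnorm_one : mnorm m g (1 : MvPolynomial (Fin n) R) = 1 := by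
  unfold mnorm
  rw [map_one, map_one]

/-- the evaluation homomorphism of the quotient at a solution -/
noncomputable def msolHom {x : Fin n → R} (hx : msol m g x) : MQ m g →ₐ[R] R :=
  Ideal.Quotient.liftₐ (mideal m g) (aeval x) (by
    intro a ha
    have hle : mideal m g ≤ RingHom.ker (aeval x : MvPolynomial (Fin n) R →ₐ[R] R) := by
      unfold mideal
      rw [Ideal.span_le]
      rintro _ ⟨i, rfl⟩
      rw [SetLike.mem_coe, RingHom.mem_ker]
      have := hx i
      simp [aeval_eq_eval, this]
    exact hle ha)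

theorem msolHom_mk {x : Fin n → R} (hx : msol m g x) (G : MvPolynomial (Fin n) R) :
    msolHom hx (Ideal.Quotient.mk (mideal m g) G) = eval x G := by
  have : msolHom hx (Ideal.Quotient.mk (mideal m g) G) = aeval x G :=
    Ideal.Quotient.liftₐ_apply _ _ _ _
  rw [this, aeval_eq_eval]

/-- a norm vanishes if the polynomial vanishes at a solution of the system -/
theorem mnorm_eq_zero_of_msol (hg : ∀ i, (g i).totalDegree < m) {x : Fin n → R}
    (hx : msol m g x) {G : MvPolynomial (Fin n) R} (h : eval x G = 0) : mnorm m g G = 0 := by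
  rw [mnorm_eq_det hg]
  set M := mmat hg G with hM
  set v : (Fin n → Fin m) → R := fun α => msolHom hx (mbasis hg α) with hv
  have h1 : Matrix.vecMul v M = 0 := by
    ext β
    have := congrArg (msolHom hx) (mk_mul_mbasis hg G β)
    rw [map_mul, msolHom_mk, h, zero_mul, map_sum] at this
    rw [Matrix.vecMul, dotProduct, Pi.zero_apply, this]
    refine Finset.sum_congr rfl fun α _ => ?_
    rw [map_smul, smul_eq_mul, mul_comm]
  have h2 : ∀ β, M.det * v β = 0 := by
    have h3 : Matrix.vecMul (Matrix.vecMul v M) M.adjugate = 0 := by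
      rw [h1, Matrix.zero_vecMul]
    rw [Matrix.vecMul_vecMul, Matrix.mul_adjugate] at h3
    intro β
    have h4 := congrFun h3 β
    rw [Matrix.vecMul_smul, Matrix.vecMul_one] at h4
    simpa using h4
  have h5 : (1 : R) = ∑ β, (mbasis hg).repr 1 β * v β := by
    have := congrArg (msolHom hx) ((mbasis hg).sum_repr 1)
    rw [map_one (msolHom hx), map_sum] at this
    refine this.symm.trans (Finset.sum_congr rfl fun α _ => ?_)
    rw [map_smul, smul_eq_mul]
  calc M.det = M.det * 1 := (mul_one _).symm
    _ = ∑ β, (mbasis hg).repr 1 β * (M.det * v β) := by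
        rw [h5, Finset.mul_sum]
        refine Finset.sum_congr rfl fun β _ => ?_
        ring
    _ = 0 := Finset.sum_eq_zero fun β _ => by rw [h2, mul_zero]

theorem mcp_eq_charpoly (hg : ∀ i, (g i).totalDegree < m) (G : MvPolynomial (Fin n) R) :
    mcp m g G = (mmat hg G).charpoly := by
  unfold mcp
  rw [mnorm_eq_det (totalDegree_map_lt Polynomial.C hg), mmat_sub, mmat_C, mmat_map,
    Matrix.charpoly, Matrix.charmatrix]
  rfl

theorem mcp_monic (hg : ∀ i, (g i).totalDegree < m) (G : MvPolynomial (Fin n) R) :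
    (mcp m g G).Monic := by
  rw [mcp_eq_charpoly hg]
  exact Matrix.charpoly_monic _

theorem mcp_natDegree [Nontrivial R] (hg : ∀ i, (g i).totalDegree < m)
    (G : MvPolynomial (Fin n) R) : (mcp m g G).natDegree = m ^ n := by
  rw [mcp_eq_charpoly hg, Matrix.charpoly_natDegree_eq_dim]
  simp

theorem mcp_eval (hg : ∀ i, (g i).totalDegree < m) (G : MvPolynomial (Fin n) R) (b : R) :
    (mcp m g G).eval b = mnorm m g (C b - G) := by
  have h := mnorm_map (Polynomial.evalRingHom b) (totalDegree_map_lt Polynomial.C hg)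
    (C Polynomial.X - map Polynomial.C G)
  have hc : (Polynomial.evalRingHom b).comp Polynomial.C = RingHom.id R := by
    ext a; simp
  simp only [map_sub, map_C, map_map, hc, map_id, Polynomial.coe_evalRingHom,
    Polynomial.eval_X] at h
  rw [h]
  rfl

theorem mcp_map {S : Type*} [CommRing S] (φ : R →+* S)
    (hg : ∀ i, (g i).totalDegree < m) (G : MvPolynomial (Fin n) R) :
    mcp m (fun i => map φ (g i)) (map φ G) = (mcp m g G).map φ := by
  rw [mcp_eq_charpoly (totalDegree_map_lt φ hg), mcp_eq_charpoly hg, mmat_map,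
    Matrix.charpoly_map]

theorem mthom_map {S : Type*} [CommRing S] (φ : R →+* S)
    (hg : ∀ i, (g i).totalDegree < m) (i : Fin n) (l : ℕ) :
    mthom m (fun i => map φ (g i)) i l = map φ (mthom m g i l) := by
  have h : mchi m (fun i => map φ (g i)) i = (mchi m g i).map φ := by
    unfold mchi
    rw [← mcp_map φ hg, map_X]
  have h2 : ∀ P : Polynomial R, Polynomial.hasseDeriv l (P.map φ) =
      (Polynomial.hasseDeriv l P).map φ := by
    intro P
    ext k
    rw [Polynomial.hasseDeriv_coeff, Polynomial.coeff_map, Polynomial.coeff_map,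
      Polynomial.hasseDeriv_coeff, map_mul, map_natCast]
  unfold mthom
  rw [h, h2]
  generalize Polynomial.hasseDeriv l (mchi m g i) = P
  rw [Polynomial.aeval_def, Polynomial.aeval_def, Polynomial.eval₂_map, Polynomial.hom_eval₂,
    map_X]
  congr 1
  ext a
  simp

theorem mcp_eval_of_msol (hg : ∀ i, (g i).totalDegree < m) {x : Fin n → R}
    (hx : msol m g x) (G : MvPolynomial (Fin n) R) :
    (mcp m g G).eval (eval x G) = 0 := by
  rw [mcp_eval hg]
  exact mnorm_eq_zero_of_msol hg hx (by simp)

/-- over a domain of characteristic zero some constant shift `c ≤ D` has non-zero norm -/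
theorem exists_shift_mnorm_ne_zero [IsDomain R] [CharZero R] (hg : ∀ i, (g i).totalDegree < m)
    (G : MvPolynomial (Fin n) R) :
    ∃ c ≤ m ^ n, mnorm m g (G + (c : MvPolynomial (Fin n) R)) ≠ 0 := by
  by_contra hcon
  push Not at hcon
  have hP := mcp_monic hg (-G)
  have hdeg := mcp_natDegree hg (-G)
  have hroots : ∀ c ∈ Finset.range (m ^ n + 1), (mcp m g (-G)).eval (c : R) = 0 := by
    intro c hc
    rw [mcp_eval hg]
    have := hcon c (by simpa [Nat.lt_succ_iff] using hc)
    rw [← this]
    congr 1
    rw [sub_neg_eq_add, add_comm, map_natCast]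
  have hz : mcp m g (-G) = 0 := by
    refine Polynomial.eq_zero_of_natDegree_lt_card_of_eval_eq_zero' (mcp m g (-G))
      ((Finset.range (m ^ n + 1)).map ⟨((↑) : ℕ → R), Nat.cast_injective⟩) ?_ ?_
    · intro i hi
      rw [Finset.mem_map] at hi
      obtain ⟨c, hc, rfl⟩ := hi
      exact hroots c hc
    · rw [Finset.card_map, Finset.card_range, hdeg]
      omega
  exact hP.ne_zero hz

end Crest.Agent.R316
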