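import Mathlib

/-!
# R316 / Alg / Defs : monic systems `X_i ^ m = g_i`, their norms, traces, Jacobians, solutions.

All notions are total functions of the raw data `(m, g)`; the theorems assume
`hg : ∀ i, (g i).totalDegree < m`.
-/

set_option autoImplicit false

namespace Crest.Agent.R316

open MvPolynomial

variable {R : Type*} [CommRing R] {n : ℕ}

/-- the ideal generated by the `X_i ^ m - g_i` -/
noncomputable def mideal (m : ℕ) (g : Fin n → MvPolynomial (Fin n) R) :
    Ideal (MvPolynomial (Fin n) R) :=
  Ideal.span (Set.range fun i => X i ^ m - g i)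

/-- the quotient algebra -/
abbrev MQ (m : ℕ) (g : Fin n → MvPolynomial (Fin n) R) := MvPolynomial (Fin n) R ⧸ mideal m g

/-- the norm of (the class of) a polynomial: the determinant of multiplication by it -/
noncomputable def mnorm (m : ℕ) (g : Fin n → MvPolynomial (Fin n) R)
    (G : MvPolynomial (Fin n) R) : R :=
  Algebra.norm R (Ideal.Quotient.mk (mideal m g) G)

/-- the trace of multiplication by a polynomial -/
noncomputable def mtrace (m : ℕ) (g : Fin n → MvPolynomial (Fin n) R)
    (G : MvPolynomial (Fin n) R) : R :=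
  Algebra.trace R (MQ m g) (Ideal.Quotient.mk (mideal m g) G)

/-- the Jacobian determinant of the system -/
noncomputable def mjac (m : ℕ) (g : Fin n → MvPolynomial (Fin n) R) : MvPolynomial (Fin n) R :=
  Matrix.det (Matrix.of fun i j => pderiv j (X i ^ m - g i))

/-- solutions in the base ring -/
def msol (m : ℕ) (g : Fin n → MvPolynomial (Fin n) R) (x : Fin n → R) : Prop :=
  ∀ i, x i ^ m = eval x (g i)

/-- the "characteristic polynomial" of `G`, as a norm over `R[T]` : `Norm (T - G)` -/
noncomputable def mcp (m : ℕ) (g : Fin n → MvPolynomial (Fin n) R)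
    (G : MvPolynomial (Fin n) R) : Polynomial R :=
  mnorm m (fun i => map Polynomial.C (g i)) (C Polynomial.X - map Polynomial.C G)

/-- characteristic polynomial of the coordinate `x_i` -/
noncomputable def mchi (m : ℕ) (g : Fin n → MvPolynomial (Fin n) R) (i : Fin n) : Polynomial R :=
  mcp m g (X i)

/-- the `l`-th Hasse derivative of the characteristic polynomial of `x_i`, evaluated at `x_i` -/
noncomputable def mthom (m : ℕ) (g : Fin n → MvPolynomial (Fin n) R) (i : Fin n) (l : ℕ) :
    MvPolynomial (Fin n) R :=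
  Polynomial.aeval (X i) (Polynomial.hasseDeriv l (mchi m g i))

/-! ### generic expressions approximating signs -/

section Sgn
variable {A : Type*} [CommRing A]

/-- `P(t) = ∏_{k ≤ K} (t + 2^k)^e` -/
def sgP (K e : ℕ) (t : A) : A := ∏ k ∈ Finset.range (K + 1), (t + 2 ^ k) ^ e

/-- `Q(t) = P(t) + P(-t)` -/
def sgQ (K e : ℕ) (t : A) : A := sgP K e t + sgP K e (-t)

/-- common denominator -/
def testDen (K e N : ℕ) (G : ℕ → A) : A := ∏ j ∈ Finset.range N, sgQ K e (G j)

/-- numerator of `(∑_k w_k [G_k < 0]) - v` -/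
def testNum (K e N : ℕ) (w : ℕ → ℕ) (v : ℕ) (G : ℕ → A) : A :=
  (∑ k ∈ Finset.range N, (w k : A) * sgP K e (-(G k)) *
      ∏ j ∈ (Finset.range N).erase k, sgQ K e (G j)) - (v : A) * testDen K e N G

/-- the test polynomial: negative exactly when `∑_k w_k [G_k < 0] = v`. -/
def testPoly (K e N : ℕ) (w : ℕ → ℕ) (v D c : ℕ) (G : ℕ → A) : A :=
  ((D : A) + 1) * (16 * testNum K e N w v G ^ 2 - 2 * testDen K e N G ^ 2) + (c : A)

end Sgn

/-- combined family: the property polynomials `ψ_k` (`k < N1`) followed by the Thom family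
`T0 * thom_{i,l} ± 1`, where `k - N1 = 2 * (i + n * l) + (0 or 1)`. -/
noncomputable def famG [NeZero n] (m : ℕ) (g : Fin n → MvPolynomial (Fin n) R) (N1 T0 : ℕ)
    (ψ : ℕ → MvPolynomial (Fin n) R) (k : ℕ) : MvPolynomial (Fin n) R :=
  if k < N1 then ψ k
  else (T0 : MvPolynomial (Fin n) R) *
      mthom m g (Fin.ofNat n ((k - N1) / 2)) ((k - N1) / 2 / n) + (if (k - N1) % 2 = 0 then 1 else -1)

/-- weights: `L` for the property family, `a ^ k % (p+1)` for the Thom family. -/
def famW (N1 L p a : ℕ) (k : ℕ) : ℕ := if k < N1 then L else a ^ (k - N1) % (p + 1)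

/-- the number of functions in the Thom family when the rank is `D = m^n`. -/
def nThom (n m : ℕ) : ℕ := 2 * (n * (m ^ n + 1))

/-- the test polynomial used for "there is a real solution at which all `ψ_k` are positive",
with seed `(p,a,v,c)`. -/
noncomputable def seedPoly [NeZero n] (m : ℕ) (g : Fin n → MvPolynomial (Fin n) R)
    (K e N1 T0 L : ℕ) (ψ : ℕ → MvPolynomial (Fin n) R) (p a v c : ℕ) : MvPolynomial (Fin n) R :=
  testPoly K e (N1 + nThom n m) (famW N1 L p a) v (m ^ n) c (famG m g N1 T0 ψ)

end Crest.Agent.R316
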