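import Crest.Agent.R316.Alg.Defs

/-!
# R316 / Alg / SignApprox  (task A7)
The explicit rational approximation of `[t < 0]`, and the sign of `testPoly` at real numbers.
-/

set_option autoImplicit false

namespace Crest.Agent.R316

/-- number of "negative" indices, weighted -/
noncomputable def negSum (N : ℕ) (w : ℕ → ℕ) (G : ℕ → ℝ) : ℕ :=
  open Classical in ∑ k ∈ Finset.range N, if G k < 0 then w k else 0

theorem sgP_nonneg {K e : ℕ} (he : Even e) (t : ℝ) : 0 ≤ sgP K e t :=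
  Finset.prod_nonneg fun _ _ => he.pow_nonneg _

theorem sgP_ge_one {K e : ℕ} {t : ℝ} (h1 : 1 ≤ t) : 1 ≤ sgP K e t := by
  unfold sgP
  refine Finset.prod_induction _ (fun a => (1:ℝ) ≤ a) (fun a b ha hb => ?_) le_rfl fun k _ => ?_
  · nlinarith
  · exact one_le_pow₀ (by nlinarith [pow_pos (two_pos : (0:ℝ) < 2) k])

theorem sgQ_ge_one {K e : ℕ} (he : Even e) {t : ℝ} (h1 : 1 ≤ |t|) : 1 ≤ sgQ K e t := by
  unfold sgQ
  rcases le_total 0 t with h | h
  · rw [abs_of_nonneg h] at h1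
    have := sgP_ge_one (K := K) (e := e) h1
    have := sgP_nonneg (K := K) he (-t)
    linarith
  · rw [abs_of_nonpos h] at h1
    have := sgP_ge_one (K := K) (e := e) h1
    have := sgP_nonneg (K := K) he t
    linarith

theorem sgP_neg_le {K e : ℕ} (he : Even e) {t : ℝ} (h1 : 1 ≤ t) (h2 : t ≤ 2 ^ K) :
    sgP K e (-t) * 3 ^ e ≤ sgP K e t := by
  -- choose `k` with `2^k ≤ t ≤ 2^(k+1)`
  obtain ⟨k, hkK, hk1, hk2⟩ : ∃ k ≤ K, (2:ℝ) ^ k ≤ t ∧ t ≤ 2 ^ (k + 1) := by
    induction K with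
    | zero => exact ⟨0, le_rfl, by simpa using h1, by
        have : t ≤ 1 := by simpa using h2
        norm_num; linarith⟩
    | succ K ih =>
      rcases le_total t (2 ^ K) with h | h
      · obtain ⟨k, hk, h3, h4⟩ := ih h
        exact ⟨k, by omega, h3, h4⟩
      · exact ⟨K, by omega, h, h2⟩
  unfold sgP
  have hmem : k ∈ Finset.range (K + 1) := Finset.mem_range.2 (by omega)
  rw [← Finset.mul_prod_erase _ _ hmem, ← Finset.mul_prod_erase _ (fun k => (t + 2 ^ k) ^ e) hmem]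
  have hfac : (-t + 2 ^ k) ^ e * 3 ^ e ≤ (t + 2 ^ k) ^ e := by
    rw [← mul_pow]
    rw [← he.pow_abs]
    apply pow_le_pow_left₀ (abs_nonneg _)
    rw [abs_le]
    have : (2:ℝ) ^ (k+1) = 2 * 2 ^ k := by ring
    constructor <;> nlinarith [pow_pos (two_pos : (0:ℝ) < 2) k]
  have hrest : ∏ x ∈ (Finset.range (K + 1)).erase k, (-t + 2 ^ x) ^ e ≤
      ∏ x ∈ (Finset.range (K + 1)).erase k, (t + 2 ^ x) ^ e := by
    apply Finset.prod_le_prod
    · intro i _; exact he.pow_nonneg _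
    · intro i _
      rw [← he.pow_abs]
      apply pow_le_pow_left₀ (abs_nonneg _)
      rw [abs_le]
      constructor <;> nlinarith [pow_pos (two_pos : (0:ℝ) < 2) i]
  calc (-t + 2 ^ k) ^ e * (∏ x ∈ (Finset.range (K + 1)).erase k, (-t + 2 ^ x) ^ e) * 3 ^ e
      = ((-t + 2 ^ k) ^ e * 3 ^ e) * (∏ x ∈ (Finset.range (K + 1)).erase k, (-t + 2 ^ x) ^ e) := by
        ring
    _ ≤ (t + 2 ^ k) ^ e * (∏ x ∈ (Finset.range (K + 1)).erase k, (t + 2 ^ x) ^ e) := by
        apply mul_le_mul hfac hrest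
        · exact Finset.prod_nonneg fun _ _ => he.pow_nonneg _
        · exact he.pow_nonneg _

/-- the approximate indicator of negativity -/
theorem approx_ind {K e : ℕ} (he : Even e) {t : ℝ} (h1 : 1 ≤ |t|) (h2 : |t| ≤ 2 ^ K) :
    |sgP K e (-t) / sgQ K e t - (if t < 0 then 1 else 0)| * 3 ^ e ≤ 1 := by
  have hQ := sgQ_ge_one (K := K) he h1
  have hQ0 : 0 < sgQ K e t := by linarith
  have h3 : (0:ℝ) < 3 ^ e := by positivity
  rcases le_total 0 t with h | h
  · rw [abs_of_nonneg h] at h1 h2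
    rw [if_neg (by linarith), sub_zero, abs_of_nonneg (div_nonneg (sgP_nonneg he _) hQ0.le),
      div_mul_eq_mul_div, div_le_one hQ0]
    have := sgP_neg_le he h1 h2
    have h5 := sgP_nonneg (K := K) he (-t)
    unfold sgQ
    linarith
  · have ht : t < 0 := by
      rcases lt_or_eq_of_le h with h' | h'
      · exact h'
      · rw [h', abs_zero] at h1; linarith
    rw [abs_of_neg ht] at h1 h2
    rw [if_pos ht]
    have e1 : sgP K e (-t) / sgQ K e t - 1 = - (sgP K e t / sgQ K e t) := by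
      field_simp
      unfold sgQ
      ring
    rw [e1, abs_neg, abs_of_nonneg (div_nonneg (sgP_nonneg he _) hQ0.le),
      div_mul_eq_mul_div, div_le_one hQ0]
    have := sgP_neg_le he h1 h2
    rw [neg_neg] at this
    have h5 := sgP_nonneg (K := K) he t
    unfold sgQ
    linarith

theorem testDen_ge_one {K e N : ℕ} {G : ℕ → ℝ} (he : Even e)
    (hG : ∀ k < N, 1 ≤ |G k| ∧ |G k| ≤ 2 ^ K) : 1 ≤ testDen K e N G := by
  unfold testDen
  refine Finset.prod_induction _ (fun a => (1:ℝ) ≤ a) (fun a b ha hb => ?_) le_rfl fun k hk => ?_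
  · nlinarith
  · exact sgQ_ge_one he (hG k (Finset.mem_range.1 hk)).1

theorem testNum_div {K e N : ℕ} {w : ℕ → ℕ} {v : ℕ} {G : ℕ → ℝ} (he : Even e)
    (hG : ∀ k < N, 1 ≤ |G k| ∧ |G k| ≤ 2 ^ K) :
    testNum K e N w v G = testDen K e N G *
      ((∑ k ∈ Finset.range N, (w k : ℝ) * (sgP K e (-(G k)) / sgQ K e (G k))) - v) := by
  unfold testNum
  rw [mul_sub, Finset.mul_sum]
  congr 1
  · apply Finset.sum_congr rfl
    intro k hk
    have hk' := Finset.mem_range.1 hk
    unfold testDen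
    rw [← Finset.mul_prod_erase _ _ hk]
    have hQ0 : sgQ K e (G k) ≠ 0 := by
      have := sgQ_ge_one (K := K) he (hG k hk').1
      linarith
    field_simp
  · ring

theorem testNum_close {K e N : ℕ} {w : ℕ → ℕ} {G : ℕ → ℝ} (he : Even e)
    (hw : 4 * ∑ k ∈ Finset.range N, w k < 3 ^ e)
    (hG : ∀ k < N, 1 ≤ |G k| ∧ |G k| ≤ 2 ^ K) :
    4 * |(∑ k ∈ Finset.range N, (w k : ℝ) * (sgP K e (-(G k)) / sgQ K e (G k))) -
      (negSum N w G : ℝ)| < 1 := by
  have h3 : (0:ℝ) < 3 ^ e := by positivity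
  have hcast : (negSum N w G : ℝ) =
      ∑ k ∈ Finset.range N, (w k : ℝ) * (if G k < 0 then 1 else 0) := by
    unfold negSum
    push_cast
    apply Finset.sum_congr rfl
    intro k _
    split_ifs <;> simp
  rw [hcast, ← Finset.sum_sub_distrib]
  have hb : |∑ k ∈ Finset.range N, ((w k : ℝ) * (sgP K e (-(G k)) / sgQ K e (G k)) -
      (w k : ℝ) * (if G k < 0 then 1 else 0))| * 3 ^ e ≤ ∑ k ∈ Finset.range N, (w k : ℝ) := by
    calc _ ≤ (∑ k ∈ Finset.range N, |(w k : ℝ) * (sgP K e (-(G k)) / sgQ K e (G k)) -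
      (w k : ℝ) * (if G k < 0 then 1 else 0)|) * 3 ^ e := by
          gcongr
          exact Finset.abs_sum_le_sum_abs _ _
      _ = ∑ k ∈ Finset.range N, (w k : ℝ) * (|sgP K e (-(G k)) / sgQ K e (G k) -
            (if G k < 0 then 1 else 0)| * 3 ^ e) := by
          rw [Finset.sum_mul]
          apply Finset.sum_congr rfl
          intro k _
          rw [← mul_sub, abs_mul, Nat.abs_cast]
          ring
      _ ≤ ∑ k ∈ Finset.range N, (w k : ℝ) := by
          apply Finset.sum_le_sum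
          intro k hk
          have := approx_ind he (hG k (Finset.mem_range.1 hk)).1 (hG k (Finset.mem_range.1 hk)).2
          calc (w k : ℝ) * _ ≤ (w k : ℝ) * 1 := by gcongr
            _ = _ := mul_one _
  have hw' : 4 * ∑ k ∈ Finset.range N, (w k : ℝ) < 3 ^ e := by exact_mod_cast hw
  by_contra hcon
  rw [not_lt] at hcon
  nlinarith

/-- sign of the test polynomial, case `= v` -/
theorem testPoly_neg {K e N : ℕ} {w : ℕ → ℕ} {v D c : ℕ} {G : ℕ → ℝ} (he : Even e)
    (hw : 4 * ∑ k ∈ Finset.range N, w k < 3 ^ e) (hc : c ≤ D)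
    (hG : ∀ k < N, 1 ≤ |G k| ∧ |G k| ≤ 2 ^ K) (hv : negSum N w G = v) :
    testPoly K e N w v D c G < 0 := by
  have hden := testDen_ge_one (K := K) he hG
  have hnum := testNum_div (K := K) (w := w) (v := v) he hG
  have hcl := testNum_close (K := K) (w := w) he hw hG
  rw [hv] at hcl
  set S := (∑ k ∈ Finset.range N, (w k : ℝ) * (sgP K e (-(G k)) / sgQ K e (G k))) - v
  have hS : 16 * S ^ 2 ≤ 1 := by
    rw [← sq_abs]
    nlinarith [abs_nonneg S]
  unfold testPoly
  rw [hnum]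
  have hcD : (c:ℝ) ≤ D := by exact_mod_cast hc
  have hd2 : 1 ≤ testDen K e N G ^ 2 := one_le_pow₀ hden
  have h1 : 16 * (testDen K e N G * S) ^ 2 - 2 * testDen K e N G ^ 2 ≤ -1 := by
    have : 16 * (testDen K e N G * S) ^ 2 = testDen K e N G ^ 2 * (16 * S ^ 2) := by ring
    rw [this]
    nlinarith
  nlinarith [(Nat.cast_nonneg D : (0:ℝ) ≤ D)]

/-- sign of the test polynomial, case `≠ v` -/
theorem testPoly_pos {K e N : ℕ} {w : ℕ → ℕ} {v D c : ℕ} {G : ℕ → ℝ} (he : Even e)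
    (hw : 4 * ∑ k ∈ Finset.range N, w k < 3 ^ e)
    (hG : ∀ k < N, 1 ≤ |G k| ∧ |G k| ≤ 2 ^ K) (hv : negSum N w G ≠ v) :
    0 < testPoly K e N w v D c G := by
  have hden := testDen_ge_one (K := K) he hG
  have hnum := testNum_div (K := K) (w := w) (v := v) he hG
  have hcl := testNum_close (K := K) (w := w) he hw hG
  set T := (∑ k ∈ Finset.range N, (w k : ℝ) * (sgP K e (-(G k)) / sgQ K e (G k)))
  have hne : 1 ≤ |((negSum N w G : ℕ) : ℝ) - (v : ℝ)| := by
    have : (1:ℤ) ≤ |((negSum N w G : ℕ) : ℤ) - (v : ℤ)| := by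
      apply Int.one_le_abs
      omega
    exact_mod_cast this
  have hS : 9 ≤ 16 * (T - v) ^ 2 := by
    have h1 : |((negSum N w G : ℕ) : ℝ) - (v : ℝ)| ≤ |T - v| + |T - negSum N w G| := by
      have : ((negSum N w G : ℕ) : ℝ) - (v : ℝ) = (T - v) - (T - negSum N w G) := by ring
      rw [this]
      exact abs_sub _ _
    have h2 : 3 ≤ 4 * |T - v| := by linarith
    rw [← sq_abs]
    nlinarith
  unfold testPoly
  rw [hnum]
  have hd2 : 1 ≤ testDen K e N G ^ 2 := one_le_pow₀ hden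
  have h1 : 1 ≤ 16 * (testDen K e N G * (T - v)) ^ 2 - 2 * testDen K e N G ^ 2 := by
    have : 16 * (testDen K e N G * (T - v)) ^ 2 = testDen K e N G ^ 2 * (16 * (T - v) ^ 2) := by
      ring
    rw [this]
    nlinarith
  have : (0:ℝ) ≤ c := Nat.cast_nonneg c
  nlinarith [(Nat.cast_nonneg D : (0:ℝ) ≤ D)]

/-- the generic expressions commute with ring homomorphisms -/
theorem map_testPoly {A B : Type*} [CommRing A] [CommRing B] (φ : A →+* B) (K e N : ℕ)
    (w : ℕ → ℕ) (v D c : ℕ) (G : ℕ → A) :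
    φ (testPoly K e N w v D c G) = testPoly K e N w v D c (fun k => φ (G k)) := by
  have h2 : φ 2 = 2 := map_ofNat φ 2
  have h16 : φ 16 = 16 := map_ofNat φ 16
  simp [testPoly, testNum, testDen, sgQ, sgP, map_sum, map_prod, h2, h16]

/-- `testPoly` with shift: `testPoly ... c = testPoly ... 0 + c` -/
theorem testPoly_shift {A : Type*} [CommRing A] (K e N : ℕ) (w : ℕ → ℕ) (v D c : ℕ) (G : ℕ → A) :
    testPoly K e N w v D c G = testPoly K e N w v D 0 G + (c : A) := by
  simp [testPoly]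

end Crest.Agent.R316
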