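import Crest.Agent.R316.Alg.Basis

/-!
# R316 / Alg / Thom  (task A8)
Thom's lemma with Hasse derivatives, and polynomial hashing of sign vectors.
-/

set_option autoImplicit false

namespace Crest.Agent.R316

open MvPolynomial

theorem thom_sign_const (d : ℕ) : ∀ (P : Polynomial ℝ), P.natDegree ≤ d → ∀ a b : ℝ, a < b →
    (∀ l, SignType.sign ((Polynomial.derivative^[l] P).eval a) =
      SignType.sign ((Polynomial.derivative^[l] P).eval b)) →
    ∀ x ∈ Set.Icc a b, SignType.sign (P.eval x) = SignType.sign (P.eval a) := by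
  induction d with
  | zero =>
    intro P hP a b _ _ x _
    rw [Polynomial.eq_C_of_natDegree_le_zero hP]
    simp
  | succ d ih =>
    intro P hd a b hab h x hx
    have hder := ih (Polynomial.derivative P)
      (by have := Polynomial.natDegree_derivative_le P; omega) a b hab
      (fun l => by simpa [Function.iterate_succ_apply] using h (l + 1))
    have h0 : SignType.sign (P.eval a) = SignType.sign (P.eval b) := by simpa using h 0
    have ha : a ∈ Set.Icc a b := Set.left_mem_Icc.2 hab.le
    have hb : b ∈ Set.Icc a b := Set.right_mem_Icc.2 hab.le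
    rcases le_total 0 (P.derivative.eval a) with hpos | hneg
    · have hmono : MonotoneOn (fun x => P.eval x) (Set.Icc a b) := by
        apply monotoneOn_of_deriv_nonneg (convex_Icc a b) P.continuous.continuousOn
          P.differentiable.differentiableOn
        intro y hy
        rw [Polynomial.deriv]
        have hy' : y ∈ Set.Icc a b := interior_subset hy
        have h1 := hder y hy'
        by_contra hlt
        push Not at hlt
        rw [sign_neg hlt] at h1
        have h2 : P.derivative.eval a < 0 := sign_eq_neg_one_iff.1 h1.symm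
        linarith
      apply le_antisymm
      · rw [h0]
        exact SignType.sign.monotone (hmono hx hb hx.2)
      · exact SignType.sign.monotone (hmono ha hx hx.1)
    · have hmono : AntitoneOn (fun x => P.eval x) (Set.Icc a b) := by
        apply antitoneOn_of_deriv_nonpos (convex_Icc a b) P.continuous.continuousOn
          P.differentiable.differentiableOn
        intro y hy
        rw [Polynomial.deriv]
        have hy' : y ∈ Set.Icc a b := interior_subset hy
        have h1 := hder y hy'
        by_contra hlt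
        push Not at hlt
        rw [sign_pos hlt] at h1
        have h2 : 0 < P.derivative.eval a := sign_eq_one_iff.1 h1.symm
        linarith
      apply le_antisymm
      · exact SignType.sign.monotone (hmono ha hx hx.1)
      · rw [h0]
        exact SignType.sign.monotone (hmono hx hb hx.2)

theorem sign_hasseDeriv_eq (P : Polynomial ℝ) (l : ℕ) (a : ℝ) :
    SignType.sign ((Polynomial.derivative^[l] P).eval a) =
      SignType.sign ((Polynomial.hasseDeriv l P).eval a) := by
  have h := congrFun (Polynomial.factorial_smul_hasseDeriv (R := ℝ) l) P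
  rw [← h]
  have h2 : Polynomial.eval a ((l.factorial • Polynomial.hasseDeriv (R := ℝ) l) P) =
      (l.factorial : ℝ) * (Polynomial.hasseDeriv l P).eval a := by
    simp [nsmul_eq_mul]
  rw [h2, sign_mul, sign_pos (by positivity : (0:ℝ) < l.factorial), one_mul]

/-- **Thom's lemma**: two distinct real roots of a non-zero real polynomial are separated by the
sign of some Hasse derivative of order `1 ≤ l ≤ natDegree`. -/
theorem thom_lemma {P : Polynomial ℝ} (hP : P ≠ 0) {a b : ℝ} (hab : a ≠ b) (ha : P.eval a = 0)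
    (hb : P.eval b = 0) :
    ∃ l, 1 ≤ l ∧ l ≤ P.natDegree ∧
      SignType.sign ((Polynomial.hasseDeriv l P).eval a) ≠
        SignType.sign ((Polynomial.hasseDeriv l P).eval b) := by
  by_contra hcon
  push Not at hcon
  have key : ∀ l, SignType.sign ((Polynomial.derivative^[l] P).eval a) =
      SignType.sign ((Polynomial.derivative^[l] P).eval b) := by
    intro l
    rcases Nat.eq_zero_or_pos l with rfl | hl
    · simp [ha, hb]
    · by_cases hl2 : l ≤ P.natDegree
      · rw [sign_hasseDeriv_eq, sign_hasseDeriv_eq]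
        exact hcon l hl hl2
      · rw [Polynomial.iterate_derivative_eq_zero (by omega)]
        simp
  apply hP
  apply Polynomial.eq_zero_of_infinite_isRoot
  rcases lt_or_gt_of_ne hab with h | h
  · refine Set.Infinite.mono ?_ (Set.Icc_infinite h)
    intro x hx
    have := thom_sign_const P.natDegree P le_rfl a b h key x hx
    rw [ha, sign_zero, sign_eq_zero_iff] at this
    exact this
  · refine Set.Infinite.mono ?_ (Set.Icc_infinite h)
    intro x hx
    have := thom_sign_const P.natDegree P le_rfl b a h (fun l => (key l).symm) x hx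
    rw [hb, sign_zero, sign_eq_zero_iff] at this
    exact this

/-- hashing of 0/1 vectors: for a finite family of pairwise different vectors of length `N` there
are a prime `p+1 ∈ (B, 2B]` and `a ≤ p` such that `∑_k a^k % (p+1) * b_k` are pairwise different. -/
theorem exists_hash {ι : Type*} (N : ℕ) (Z : Finset ι) (b : ι → ℕ → Prop)
    [∀ x k, Decidable (b x k)]
    (hinj : ∀ x ∈ Z, ∀ y ∈ Z, x ≠ y → ∃ k < N, ¬ (b x k ↔ b y k)) (B : ℕ)
    (hB : N * Z.card ^ 2 < B) :
    ∃ p < 2 * B, ∃ a < 2 * B, ∀ x ∈ Z, ∀ y ∈ Z,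
      (∑ k ∈ Finset.range N, if b x k then a ^ k % (p + 1) else 0) =
        (∑ k ∈ Finset.range N, if b y k then a ^ k % (p + 1) else 0) → x = y := by
  classical
  obtain ⟨P, hP, hBP, hPB⟩ := Nat.exists_prime_lt_and_le_two_mul B (by omega)
  have : Fact P.Prime := ⟨hP⟩
  -- difference polynomials
  let q : ι × ι → Polynomial (ZMod P) := fun z =>
    ∑ k ∈ Finset.range N, Polynomial.C ((if b z.1 k then 1 else 0) - (if b z.2 k then 1 else 0)) *
      Polynomial.X ^ k
  have hcoeff : ∀ z : ι × ι, ∀ k < N, (q z).coeff k =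
      (if b z.1 k then 1 else 0) - (if b z.2 k then 1 else 0) := by
    intro z k hk
    simp only [q, Polynomial.finsetSum_coeff, Polynomial.coeff_C_mul, Polynomial.coeff_X_pow]
    rw [Finset.sum_eq_single k]
    · simp
    · intro j _ hj
      simp [Ne.symm hj]
    · intro hk'
      exact absurd (Finset.mem_range.2 hk) hk'
  have hq0 : ∀ z ∈ Z.offDiag, q z ≠ 0 := by
    intro z hz h0
    rw [Finset.mem_offDiag] at hz
    obtain ⟨k, hk, hne⟩ := hinj z.1 hz.1 z.2 hz.2.1 hz.2.2
    have := hcoeff z k hk
    rw [h0, Polynomial.coeff_zero] at this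
    by_cases h1 : b z.1 k <;> by_cases h2 : b z.2 k
    · exact hne ⟨fun _ => h2, fun _ => h1⟩
    · rw [if_pos h1, if_neg h2, sub_zero] at this
      exact zero_ne_one this
    · rw [if_neg h1, if_pos h2, zero_sub] at this
      exact one_ne_zero (neg_eq_zero.1 this.symm)
    · exact hne ⟨fun h => absurd h h1, fun h => absurd h h2⟩
  have hdeg : ∀ z : ι × ι, (q z).natDegree ≤ N := by
    intro z
    apply Polynomial.natDegree_sum_le_of_forall_le
    intro k hk
    refine (Polynomial.natDegree_C_mul_X_pow_le _ _).trans ?_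
    exact (Finset.mem_range.1 hk).le
  let bad : Finset (ZMod P) := Z.offDiag.biUnion fun z => (q z).roots.toFinset
  have hbad : bad.card < Fintype.card (ZMod P) := by
    have h1 : bad.card ≤ Z.offDiag.card * N := by
      apply Finset.card_biUnion_le_card_mul
      intro z hz
      exact (Multiset.toFinset_card_le _).trans ((Polynomial.card_roots' _).trans (hdeg z))
    have h2 : Z.offDiag.card ≤ Z.card ^ 2 := by
      rw [Finset.offDiag_card, pow_two]; omega
    have h3 : Z.offDiag.card * N ≤ N * Z.card ^ 2 := by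
      rw [mul_comm]; exact Nat.mul_le_mul_left _ h2
    rw [ZMod.card]
    omega
  obtain ⟨α, hα⟩ : ∃ α : ZMod P, α ∉ bad := by
    by_contra hcon
    push Not at hcon
    have : bad = Finset.univ := Finset.eq_univ_iff_forall.2 hcon
    rw [this, Finset.card_univ] at hbad
    exact lt_irrefl _ hbad
  have hP1 : P - 1 + 1 = P := Nat.sub_add_cancel hP.one_lt.le
  refine ⟨P - 1, by omega, α.val, by have := ZMod.val_lt α; omega, ?_⟩
  intro x hx y hy hxy
  by_contra hne
  apply hα
  refine Finset.mem_biUnion.2 ⟨(x, y), ?_, ?_⟩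
  · simp [Finset.mem_offDiag, hx, hy, hne]
  · rw [Multiset.mem_toFinset, Polynomial.mem_roots (hq0 _ (by simp [Finset.mem_offDiag, hx, hy, hne]))]
    show Polynomial.eval α (q (x, y)) = 0
    rw [hP1] at hxy
    have hcast := congrArg (Nat.cast : ℕ → ZMod P) hxy
    simp only [Nat.cast_sum, Nat.cast_ite, Nat.cast_zero, ZMod.natCast_mod, Nat.cast_pow,
      ZMod.natCast_zmod_val] at hcast
    simp only [q, Polynomial.eval_finsetSum, Polynomial.eval_mul, Polynomial.eval_C,
      Polynomial.eval_pow, Polynomial.eval_X, sub_mul, ite_mul, one_mul, zero_mul,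
      Finset.sum_sub_distrib]
    rw [hcast, sub_self]

variable {n m : ℕ} {g : Fin n → MvPolynomial (Fin n) ℝ}

theorem eval_mthom {R : Type*} [CommRing R] {n m : ℕ} {g : Fin n → MvPolynomial (Fin n) R}
    (x : Fin n → R) (i : Fin n) (l : ℕ) :
    eval x (mthom m g i l) = (Polynomial.hasseDeriv l (mchi m g i)).eval (x i) := by
  unfold mthom
  have hc : (eval x).comp (C : R →+* MvPolynomial (Fin n) R) = RingHom.id R := by
    ext a; simp
  rw [Polynomial.aeval_def, Polynomial.hom_eval₂, MvPolynomial.algebraMap_eq, hc, eval_X]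
  rfl

/-- the Thom family `T0 * thom_{i,l} ± 1` separates real solutions (as sign bits), provided that
`T0 * |thom|` is never in `(0, 2)` at real solutions. -/
theorem famThom_separates [NeZero n] (hg : ∀ i, (g i).totalDegree < m) (T0 : ℕ)
    (hT : ∀ x, msol m g x → ∀ (i : Fin n) (l : ℕ), l ≤ m ^ n →
      eval x (mthom m g i l) = 0 ∨ 2 ≤ (T0 : ℝ) * |eval x (mthom m g i l)|)
    {x y : Fin n → ℝ} (hx : msol m g x) (hy : msol m g y) (hxy : x ≠ y) (N1 : ℕ)
    (ψ : ℕ → MvPolynomial (Fin n) ℝ) :
    ∃ k, N1 ≤ k ∧ k < N1 + nThom n m ∧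
      ¬ (eval x (famG m g N1 T0 ψ k) < 0 ↔ eval y (famG m g N1 T0 ψ k) < 0) := by
  obtain ⟨i, hi⟩ : ∃ i, x i ≠ y i := by
    by_contra h
    push Not at h
    exact hxy (funext h)
  have hmon : (mchi m g i).Monic := mcp_monic hg _
  have hdeg : (mchi m g i).natDegree = m ^ n := mcp_natDegree hg _
  have hrx : (mchi m g i).eval (x i) = 0 := by
    simpa [mchi] using mcp_eval_of_msol hg hx (X i)
  have hry : (mchi m g i).eval (y i) = 0 := by
    simpa [mchi] using mcp_eval_of_msol hg hy (X i)
  obtain ⟨l, hl1, hl2, hl3⟩ := thom_lemma hmon.ne_zero hi hrx hry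
  rw [hdeg] at hl2
  rw [← eval_mthom, ← eval_mthom] at hl3
  have hTx := hT x hx i l hl2
  have hTy := hT y hy i l hl2
  set u := eval x (mthom m g i l) with hu
  set v := eval y (mthom m g i l) with hv
  have hn : 0 < n := Nat.pos_of_ne_zero (NeZero.ne n)
  have hbound : (i : ℕ) + n * l < n * (m ^ n + 1) := by
    have h1 : n * l ≤ n * m ^ n := Nat.mul_le_mul_left _ hl2
    have := i.2
    nlinarith
  have hfin : Fin.ofNat n ((i : ℕ) + n * l) = i := by
    apply Fin.ext
    simp [Fin.ofNat, Nat.mod_eq_of_lt i.2]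
  have hdiv : ((i : ℕ) + n * l) / n = l := by
    rw [Nat.add_mul_div_left _ _ hn, Nat.div_eq_of_lt i.2, zero_add]
  -- the two functions of the family
  have heven : ∀ z : Fin n → ℝ, eval z (famG m g N1 T0 ψ (N1 + 2 * ((i : ℕ) + n * l))) =
      (T0 : ℝ) * eval z (mthom m g i l) + 1 := by
    intro z
    unfold famG
    rw [if_neg (by omega)]
    have e1 : N1 + 2 * ((i : ℕ) + n * l) - N1 = 2 * ((i : ℕ) + n * l) := by omega
    have e2 : 2 * ((i : ℕ) + n * l) / 2 = (i : ℕ) + n * l := by omega
    rw [e1, e2, hfin, hdiv, if_pos (by omega)]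
    simp
  have hodd : ∀ z : Fin n → ℝ, eval z (famG m g N1 T0 ψ (N1 + (2 * ((i : ℕ) + n * l) + 1))) =
      (T0 : ℝ) * eval z (mthom m g i l) - 1 := by
    intro z
    unfold famG
    rw [if_neg (by omega)]
    have e1 : N1 + (2 * ((i : ℕ) + n * l) + 1) - N1 = 2 * ((i : ℕ) + n * l) + 1 := by omega
    have e2 : (2 * ((i : ℕ) + n * l) + 1) / 2 = (i : ℕ) + n * l := by omega
    rw [e1, e2, hfin, hdiv, if_neg (by omega)]
    simp [sub_eq_add_neg]
  by_contra hcon
  push Not at hcon
  have c1 := hcon (N1 + 2 * ((i : ℕ) + n * l)) (by omega) (by unfold nThom; omega)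
  have c2 := hcon (N1 + (2 * ((i : ℕ) + n * l) + 1)) (by omega) (by unfold nThom; omega)
  rw [heven, heven, ← hu, ← hv] at c1
  rw [hodd, hodd, ← hu, ← hv] at c2
  apply hl3
  -- sign determination
  have hT0 : (0:ℝ) ≤ T0 := Nat.cast_nonneg _
  have key : ∀ w : ℝ, (w = 0 ∨ 2 ≤ (T0 : ℝ) * |w|) →
      (w < 0 ∧ (T0 : ℝ) * w + 1 < 0 ∧ (T0 : ℝ) * w - 1 < 0) ∨
      (w = 0 ∧ ¬ ((T0 : ℝ) * w + 1 < 0) ∧ (T0 : ℝ) * w - 1 < 0) ∨
      (0 < w ∧ ¬ ((T0 : ℝ) * w + 1 < 0) ∧ ¬ ((T0 : ℝ) * w - 1 < 0)) := by
    intro w hw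
    rcases lt_trichotomy w 0 with h | h | h
    · left
      rcases hw with hw | hw
      · exact absurd hw h.ne
      · rw [abs_of_neg h] at hw
        refine ⟨h, by linarith, by linarith⟩
    · right; left
      subst h
      refine ⟨rfl, by simp, by simp⟩
    · right; right
      rcases hw with hw | hw
      · exact absurd hw h.ne'
      · rw [abs_of_pos h] at hw
        refine ⟨h, by linarith, by linarith⟩
  rcases key u hTx with ⟨h1, h2, h3⟩ | ⟨h1, h2, h3⟩ | ⟨h1, h2, h3⟩ <;>
  rcases key v hTy with ⟨h4, h5, h6⟩ | ⟨h4, h5, h6⟩ | ⟨h4, h5, h6⟩ <;>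
  first
  | (rw [sign_neg h1, sign_neg h4])
  | (rw [h1, h4])
  | (rw [sign_pos h1, sign_pos h4])
  | (exfalso; tauto)

end Crest.Agent.R316
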