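import Crest.Agent.R316.Alg.RealNorm
import Crest.Agent.R316.Alg.SignApprox
import Crest.Agent.R316.Alg.Thom

/-!
# R316 / Alg / ExistsTest  (task A9)
**Theorem G**: existence of a real solution at which all `ψ_k > 0` is equivalent to the negativity
of one of finitely many norms.
-/

set_option autoImplicit false

namespace Crest.Agent.R316

open MvPolynomial

variable {n m : ℕ} {g : Fin n → MvPolynomial (Fin n) ℝ}

/-- evaluation at a solution, as an algebra homomorphism on the quotient -/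
noncomputable def msolHomR (x : Fin n → ℝ) (hx : msol m g x) : MQ m g →ₐ[ℝ] ℝ :=
  Ideal.Quotient.liftₐ (mideal m g) (aeval x) (by
    intro a ha
    have : mideal m g ≤ RingHom.ker (aeval x : MvPolynomial (Fin n) ℝ →ₐ[ℝ] ℝ) := by
      unfold mideal
      rw [Ideal.span_le]
      rintro _ ⟨i, rfl⟩
      simp only [SetLike.mem_coe, RingHom.mem_ker, map_sub, map_pow, aeval_X]
      rw [sub_eq_zero]
      have := hx i
      rw [this]
      rfl
    exact this ha)

theorem msolHomR_X (x : Fin n → ℝ) (hx : msol m g x) (i : Fin n) :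
    msolHomR x hx (Ideal.Quotient.mk (mideal m g) (X i)) = x i := by
  have h : msolHomR x hx (Ideal.Quotient.mk (mideal m g) (X i)) =
      aeval x (X i : MvPolynomial (Fin n) ℝ) := rfl
  rw [h, aeval_X]

/-- there are at most `m^n` real solutions -/
theorem card_msol_le (hg : ∀ i, (g i).totalDegree < m) (Z : Finset (Fin n → ℝ))
    (hZ : ∀ x ∈ Z, msol m g x) : Z.card ≤ m ^ n := by
  have hli := linearIndependent_toLinearMap ℝ (MQ m g) ℝ
  let f : Z → (MQ m g →ₐ[ℝ] ℝ) := fun x => msolHomR x.1 (hZ x.1 x.2)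
  have hf : Function.Injective f := by
    intro x y hxy
    apply Subtype.ext
    funext i
    rw [← msolHomR_X x.1 (hZ x.1 x.2) i, ← msolHomR_X y.1 (hZ y.1 y.2) i]
    exact congrArg (fun h : MQ m g →ₐ[ℝ] ℝ => h (Ideal.Quotient.mk (mideal m g) (X i))) hxy
  have hli2 := hli.comp f hf
  have : Module.Finite ℝ (MQ m g) := mQ_finite hg
  have : Module.Free ℝ (MQ m g) := mQ_free hg
  have hcard := hli2.fintype_card_le_finrank
  have hfr : Module.finrank ℝ (MQ m g →ₗ[ℝ] ℝ) = m ^ n := by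
    rw [Module.finrank_linearMap, Module.finrank_self, mul_one,
      Module.finrank_eq_card_basis (mbasis hg)]
    simp
  rw [hfr] at hcard
  simpa using hcard

theorem msol_finite (hg : ∀ i, (g i).totalDegree < m) : {x | msol m g x}.Finite := by
  by_contra h
  have h' : {x | msol m g x}.Infinite := h
  obtain ⟨Z, hZ, hc⟩ := h'.exists_subset_card_eq (m ^ n + 1)
  have := card_msol_le hg Z fun x hx => hZ hx
  omega

/-- robustness hypotheses for the test: all functions have absolute value in `[1, 2^K]` at the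
real solutions, the Thom values are `0` or at least `2/T0`. -/
structure Robust [NeZero n] (m : ℕ) (g : Fin n → MvPolynomial (Fin n) ℝ) (K N1 T0 : ℕ)
    (ψ : ℕ → MvPolynomial (Fin n) ℝ) : Prop where
  psi : ∀ x, msol m g x → ∀ k < N1, 1 ≤ |eval x (ψ k)| ∧ |eval x (ψ k)| ≤ 2 ^ K
  thom : ∀ x, msol m g x → ∀ (i : Fin n) (l : ℕ), l ≤ m ^ n →
    (eval x (mthom m g i l) = 0 ∨ 2 ≤ (T0 : ℝ) * |eval x (mthom m g i l)|) ∧
      (T0 : ℝ) * |eval x (mthom m g i l)| + 1 ≤ 2 ^ K

theorem Robust.famG_bound [NeZero n] {K N1 T0 : ℕ} {ψ : ℕ → MvPolynomial (Fin n) ℝ}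
    (hR : Robust m g K N1 T0 ψ) {x : Fin n → ℝ} (hx : msol m g x) {k : ℕ}
    (hk : k < N1 + nThom n m) :
    1 ≤ |eval x (famG m g N1 T0 ψ k)| ∧ |eval x (famG m g N1 T0 ψ k)| ≤ 2 ^ K := by
  unfold famG
  split_ifs with h1 h2
  · exact hR.psi x hx k h1
  all_goals
    have hl : (k - N1) / 2 / n ≤ m ^ n := by
      have h3 : k - N1 < 2 * (n * (m ^ n + 1)) := by unfold nThom at hk; omega
      have h4 : (k - N1) / 2 < n * (m ^ n + 1) := by omega
      have h5 : (k - N1) / 2 / n < m ^ n + 1 := by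
        rw [Nat.div_lt_iff_lt_mul (Nat.pos_of_ne_zero (NeZero.ne n))]
        rwa [mul_comm] at h4
      omega
    obtain ⟨ha, hb⟩ := hR.thom x hx (Fin.ofNat n ((k - N1) / 2)) _ hl
    set t := eval x (mthom m g (Fin.ofNat n ((k - N1) / 2)) ((k - N1) / 2 / n))
  · have e1 : eval x ((T0 : MvPolynomial (Fin n) ℝ) *
        mthom m g (Fin.ofNat n ((k - N1) / 2)) ((k - N1) / 2 / n) + 1) = T0 * t + 1 := by
      simp [t]
    rw [e1]
    constructor
    · rcases ha with h0 | h0
      · rw [h0]; simp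
      · have : |(T0:ℝ) * t| = T0 * |t| := by rw [abs_mul, Nat.abs_cast]
        have h6 : |(T0:ℝ) * t| ≤ |(T0:ℝ) * t + 1| + |(1:ℝ)| := by
          have := abs_sub ((T0:ℝ) * t + 1) 1
          simpa using this
        rw [abs_one] at h6
        linarith
    · calc |(T0:ℝ) * t + 1| ≤ |(T0:ℝ) * t| + |(1:ℝ)| := abs_add_le _ _
        _ = T0 * |t| + 1 := by rw [abs_mul, Nat.abs_cast, abs_one]
        _ ≤ _ := hb
  · have e1 : eval x ((T0 : MvPolynomial (Fin n) ℝ) *
        mthom m g (Fin.ofNat n ((k - N1) / 2)) ((k - N1) / 2 / n) + -1) = T0 * t + -1 := by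
      simp [t]
    rw [e1]
    constructor
    · rcases ha with h0 | h0
      · rw [h0]; simp
      · have : |(T0:ℝ) * t| = T0 * |t| := by rw [abs_mul, Nat.abs_cast]
        have h6 : |(T0:ℝ) * t| ≤ |(T0:ℝ) * t + -1| + |(-1:ℝ)| := by
          have := abs_sub ((T0:ℝ) * t + -1) (-1)
          simpa using this
        rw [abs_neg, abs_one] at h6
        linarith
    · calc |(T0:ℝ) * t + -1| ≤ |(T0:ℝ) * t| + |(-1:ℝ)| := abs_add_le _ _
        _ = T0 * |t| + 1 := by rw [abs_mul, Nat.abs_cast, abs_neg, abs_one]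
        _ ≤ _ := hb

theorem eval_seedPoly [NeZero n] {K e N1 T0 L : ℕ}
    {ψ : ℕ → MvPolynomial (Fin n) ℝ} {p a v c : ℕ} (x : Fin n → ℝ) :
    eval x (seedPoly m g K e N1 T0 L ψ p a v c) =
      testPoly K e (N1 + nThom n m) (famW N1 L p a) v (m ^ n) c
        (fun k => eval x (famG m g N1 T0 ψ k)) := by
  unfold seedPoly
  exact map_testPoly (eval x) _ _ _ _ _ _ _ _

/-- the sign sum of a solution at which the test is negative -/
theorem negSum_of_seedPoly_neg [NeZero n] {K e N1 T0 L : ℕ}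
    {ψ : ℕ → MvPolynomial (Fin n) ℝ} (hR : Robust m g K N1 T0 ψ) (he : Even e) {p a v c : ℕ}
    (hw : 4 * ∑ k ∈ Finset.range (N1 + nThom n m), famW N1 L p a k < 3 ^ e)
    {x : Fin n → ℝ} (hx : msol m g x)
    (h : eval x (seedPoly m g K e N1 T0 L ψ p a v c) < 0) :
    negSum (N1 + nThom n m) (famW N1 L p a) (fun k => eval x (famG m g N1 T0 ψ k)) = v := by
  by_contra hne
  rw [eval_seedPoly] at h
  have := testPoly_pos (K := K) (e := e) (D := m ^ n) (c := c) he hw
    (fun k hk => hR.famG_bound hx hk) hne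
  linarith

theorem psi_pos_of_negSum_lt [NeZero n] {K N1 T0 L : ℕ}
    {ψ : ℕ → MvPolynomial (Fin n) ℝ} (hR : Robust m g K N1 T0 ψ) {p a v : ℕ} (hv : v < L)
    {x : Fin n → ℝ} (hx : msol m g x)
    (h : negSum (N1 + nThom n m) (famW N1 L p a) (fun k => eval x (famG m g N1 T0 ψ k)) = v) :
    ∀ k < N1, 0 < eval x (ψ k) := by
  intro k hk
  by_contra hcon
  rw [not_lt] at hcon
  have hneg : eval x (ψ k) < 0 := by
    have := (hR.psi x hx k hk).1
    rcases lt_or_eq_of_le hcon with h' | h'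
    · exact h'
    · rw [h', abs_zero] at this; linarith
  have : L ≤ negSum (N1 + nThom n m) (famW N1 L p a)
      (fun k => eval x (famG m g N1 T0 ψ k)) := by
    unfold negSum
    have hmem : k ∈ Finset.range (N1 + nThom n m) := Finset.mem_range.2 (by omega)
    refine le_trans (le_of_eq ?_) (Finset.single_le_sum (fun _ _ => Nat.zero_le _) hmem)
    have e1 : famG m g N1 T0 ψ k = ψ k := by simp [famG, hk]
    have e2 : famW N1 L p a k = L := by simp [famW, hk]
    simp only [e1, e2, if_pos hneg]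
  omega

/-- soundness of the test -/
theorem exists_of_seedPoly_neg [NeZero n] (hg : ∀ i, (g i).totalDegree < m) {K e N1 T0 L : ℕ}
    {ψ : ℕ → MvPolynomial (Fin n) ℝ} (hR : Robust m g K N1 T0 ψ) (he : Even e) {p a v c : ℕ}
    (hw : 4 * ∑ k ∈ Finset.range (N1 + nThom n m), famW N1 L p a k < 3 ^ e)
    (hv : v < L)
    (h : mnorm m g (seedPoly m g K e N1 T0 L ψ p a v c) < 0) :
    ∃ x, msol m g x ∧ ∀ k < N1, 0 < eval x (ψ k) := by
  obtain ⟨x, hx, hneg⟩ := exists_neg_of_mnorm_neg hg _ h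
  exact ⟨x, hx, psi_pos_of_negSum_lt hR hv hx (negSum_of_seedPoly_neg hR he hw hx hneg)⟩

/-- the negativity sum at a point where all `ψ_k` are positive is the Thom hash -/
theorem negSum_of_psi_pos [NeZero n] {N1 T0 L : ℕ}
    {ψ : ℕ → MvPolynomial (Fin n) ℝ} {p a : ℕ} {x : Fin n → ℝ}
    (hpos : ∀ k < N1, 0 < eval x (ψ k)) :
    negSum (N1 + nThom n m) (famW N1 L p a) (fun k => eval x (famG m g N1 T0 ψ k)) =
      open Classical in ∑ k ∈ Finset.range (nThom n m),
        if eval x (famG m g N1 T0 ψ (N1 + k)) < 0 then a ^ k % (p + 1) else 0 := by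
  classical
  unfold negSum
  rw [Finset.sum_range_add, Finset.sum_eq_zero, zero_add]
  · apply Finset.sum_congr rfl
    intro k _
    have e2 : famW N1 L p a (N1 + k) = a ^ k % (p + 1) := by simp [famW]
    simp only [e2]
  · intro k hk
    have hk' := Finset.mem_range.1 hk
    have e1 : famG m g N1 T0 ψ k = ψ k := by simp [famG, hk']
    simp only [e1]
    rw [if_neg]
    have := hpos k hk'
    linarith

/-- completeness of the test: `B` bounds the seeds `p, a`; the number of solutions is at most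
`m^n`; `L` exceeds all possible Thom hash values. -/
theorem seedPoly_neg_of_exists [NeZero n] (hg : ∀ i, (g i).totalDegree < m) {K e N1 T0 L : ℕ}
    {ψ : ℕ → MvPolynomial (Fin n) ℝ} (hR : Robust m g K N1 T0 ψ) (he : Even e) {B : ℕ}
    (hB : nThom n m * (m ^ n) ^ 2 < B) (hL : nThom n m * (2 * B) < L)
    (hw : ∀ p < 2 * B, ∀ a < 2 * B,
      4 * ∑ k ∈ Finset.range (N1 + nThom n m), famW N1 L p a k < 3 ^ e)
    (hsimple : ∀ x, msol m g x → (∀ k < N1, 0 < eval x (ψ k)) → eval x (mjac m g) ≠ 0)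
    (h : ∃ x, msol m g x ∧ ∀ k < N1, 0 < eval x (ψ k)) :
    ∃ p < 2 * B, ∃ a < 2 * B, ∃ v < L, ∃ c ≤ m ^ n,
      mnorm m g (seedPoly m g K e N1 T0 L ψ p a v c) < 0 := by
  classical
  obtain ⟨x, hx, hpos⟩ := h
  -- the finite set of real solutions with all `ψ` positive
  have hfin : {y | msol m g y ∧ ∀ k < N1, 0 < eval y (ψ k)}.Finite :=
    (msol_finite hg).subset fun y hy => hy.1
  set Z := hfin.toFinset with hZdef
  have hZ : ∀ y, y ∈ Z ↔ msol m g y ∧ ∀ k < N1, 0 < eval y (ψ k) := by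
    intro y; simp [hZdef]
  have hZcard : Z.card ≤ m ^ n := card_msol_le hg Z fun y hy => ((hZ y).1 hy).1
  have hsep : ∀ y ∈ Z, ∀ z ∈ Z, y ≠ z → ∃ k < nThom n m,
      ¬ (eval y (famG m g N1 T0 ψ (N1 + k)) < 0 ↔ eval z (famG m g N1 T0 ψ (N1 + k)) < 0) := by
    intro y hy z hz hyz
    obtain ⟨k, hk1, hk2, hk3⟩ := famThom_separates hg T0
      (fun x hx i l hl => (hR.thom x hx i l hl).1) ((hZ y).1 hy).1 ((hZ z).1 hz).1 hyz N1 ψ
    refine ⟨k - N1, by omega, ?_⟩
    rwa [Nat.add_sub_cancel' hk1]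
  obtain ⟨p, hp, a, ha, hinj⟩ := exists_hash (nThom n m) Z
    (fun y k => eval y (famG m g N1 T0 ψ (N1 + k)) < 0) hsep B
    (lt_of_le_of_lt (Nat.mul_le_mul_left _ (Nat.pow_le_pow_left hZcard 2)) hB)
  set v := ∑ k ∈ Finset.range (nThom n m),
        if eval x (famG m g N1 T0 ψ (N1 + k)) < 0 then a ^ k % (p + 1) else 0 with hv
  have hvL : v < L := by
    refine lt_of_le_of_lt ?_ hL
    rw [hv]
    calc _ ≤ ∑ k ∈ Finset.range (nThom n m), 2 * B := by
          apply Finset.sum_le_sum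
          intro k _
          split_ifs
          · have : a ^ k % (p + 1) < p + 1 := Nat.mod_lt _ (by omega)
            omega
          · omega
      _ = _ := by simp
  have hxv : negSum (N1 + nThom n m) (famW N1 L p a)
      (fun k => eval x (famG m g N1 T0 ψ k)) = v := by
    rw [negSum_of_psi_pos hpos]
  obtain ⟨c, hc, hc0⟩ := exists_shift_mnorm_ne_zero hg
    (seedPoly m g K e N1 T0 L ψ p a v 0)
  have hshift : seedPoly m g K e N1 T0 L ψ p a v 0 + (c : MvPolynomial (Fin n) ℝ) =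
      seedPoly m g K e N1 T0 L ψ p a v c := by
    unfold seedPoly
    rw [← testPoly_shift]
  rw [hshift] at hc0
  refine ⟨p, hp, a, ha, v, hvL, c, hc, ?_⟩
  apply mnorm_neg_of_unique hg _ hc0 x hx
  · rw [eval_seedPoly]
    exact testPoly_neg he (hw p hp a ha) hc (fun k hk => hR.famG_bound hx hk) hxv
  · intro y hy hneg
    have hyv := negSum_of_seedPoly_neg hR he (hw p hp a ha) hy hneg
    have hypos := psi_pos_of_negSum_lt hR hvL hy hyv
    apply hinj y ((hZ y).2 ⟨hy, hypos⟩) x ((hZ x).2 ⟨hx, hpos⟩)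
    rw [negSum_of_psi_pos hypos] at hyv
    rw [← hv]
    exact hyv
  · exact hsimple x hx hpos

end Crest.Agent.R316
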