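import Crest.Agent.R316.Alg.Basis

/-!
# R316 / Alg / NormBound  (task A3)
Bounds for norms with respect to a submultiplicative seminorm on the coefficient ring.
-/

set_option autoImplicit false

namespace Crest.Agent.R316

open MvPolynomial

/-- a submultiplicative, subadditive "size" function on a ring -/
structure IsNu {R : Type*} [CommRing R] (ν : R → ℝ) : Prop where
  nonneg : ∀ a, 0 ≤ ν a
  zero : ν 0 = 0
  one_le : ν 1 ≤ 1
  neg : ∀ a, ν (-a) = ν a
  add_le : ∀ a b, ν (a + b) ≤ ν a + ν b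
  mul_le : ∀ a b, ν (a * b) ≤ ν a * ν b

/-- the weighted `ℓ¹` norm of a polynomial: `∑_s ν(coeff_s) ρ^{|s|}` -/
noncomputable def nuP {R : Type*} [CommRing R] {σ : Type*} (ν : R → ℝ) (ρ : ℝ)
    (P : MvPolynomial σ R) : ℝ :=
  ∑ s ∈ P.support, ν (P.coeff s) * ρ ^ (s.sum fun _ e => e)

variable {R : Type*} [CommRing R]

theorem nuP_eq_sum_of_subset {σ : Type*} {ν : R → ℝ} (hν : IsNu ν) (ρ : ℝ)
    (P : MvPolynomial σ R) (S : Finset (σ →₀ ℕ)) (hS : P.support ⊆ S) :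
    nuP ν ρ P = ∑ s ∈ S, ν (P.coeff s) * ρ ^ (s.sum fun _ e => e) := by
  unfold nuP
  refine Finset.sum_subset hS ?_
  intro s _ hs
  rw [MvPolynomial.notMem_support_iff] at hs
  rw [hs, hν.zero, zero_mul]

theorem nuP_nonneg {σ : Type*} {ν : R → ℝ} (hν : IsNu ν) {ρ : ℝ} (hρ : 0 ≤ ρ)
    (P : MvPolynomial σ R) : 0 ≤ nuP ν ρ P :=
  Finset.sum_nonneg fun _ _ => mul_nonneg (hν.nonneg _) (pow_nonneg hρ _)

theorem nuP_zero {σ : Type*} (ν : R → ℝ) (ρ : ℝ) : nuP (σ := σ) ν ρ 0 = 0 := by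
  simp [nuP]

theorem nuP_neg {σ : Type*} {ν : R → ℝ} (hν : IsNu ν) (ρ : ℝ) (P : MvPolynomial σ R) :
    nuP ν ρ (-P) = nuP ν ρ P := by
  unfold nuP
  rw [MvPolynomial.support_neg]
  refine Finset.sum_congr rfl fun s _ => ?_
  rw [MvPolynomial.coeff_neg, hν.neg]

theorem nuP_add_le {σ : Type*} {ν : R → ℝ} (hν : IsNu ν) {ρ : ℝ} (hρ : 0 ≤ ρ)
    (P Q : MvPolynomial σ R) : nuP ν ρ (P + Q) ≤ nuP ν ρ P + nuP ν ρ Q := by
  classical
  rw [nuP_eq_sum_of_subset hν ρ (P + Q) (P.support ∪ Q.support) MvPolynomial.support_add,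
    nuP_eq_sum_of_subset hν ρ P (P.support ∪ Q.support) Finset.subset_union_left,
    nuP_eq_sum_of_subset hν ρ Q (P.support ∪ Q.support) Finset.subset_union_right,
    ← Finset.sum_add_distrib]
  refine Finset.sum_le_sum fun s _ => ?_
  rw [MvPolynomial.coeff_add, ← add_mul]
  exact mul_le_mul_of_nonneg_right (hν.add_le _ _) (pow_nonneg hρ _)

theorem nuP_sum_le {σ ι : Type*} {ν : R → ℝ} (hν : IsNu ν) {ρ : ℝ} (hρ : 0 ≤ ρ)
    (s : Finset ι) (P : ι → MvPolynomial σ R) :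
    nuP ν ρ (∑ i ∈ s, P i) ≤ ∑ i ∈ s, nuP ν ρ (P i) := by
  classical
  induction s using Finset.induction_on with
  | empty => simp [nuP_zero]
  | insert a s ha ih =>
    rw [Finset.sum_insert ha, Finset.sum_insert ha]
    exact (nuP_add_le hν hρ _ _).trans (add_le_add le_rfl ih)

theorem nuP_monomial {σ : Type*} {ν : R → ℝ} (hν : IsNu ν) (ρ : ℝ) (s : σ →₀ ℕ) (a : R) :
    nuP ν ρ (monomial s a) = ν a * ρ ^ (s.sum fun _ e => e) := by
  classical
  rw [nuP_eq_sum_of_subset hν ρ (monomial s a) {s} MvPolynomial.support_monomial_subset]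
  simp

theorem nuP_monomial_mul_le {σ : Type*} {ν : R → ℝ} (hν : IsNu ν) {ρ : ℝ} (hρ : 0 ≤ ρ)
    (s : σ →₀ ℕ) (a : R) (Q : MvPolynomial σ R) :
    nuP ν ρ (monomial s a * Q) ≤ (ν a * ρ ^ (s.sum fun _ e => e)) * nuP ν ρ Q := by
  classical
  conv_lhs => rw [Q.as_sum, Finset.mul_sum]
  refine (nuP_sum_le hν hρ _ _).trans ?_
  conv_rhs => arg 2; rw [nuP]
  rw [Finset.mul_sum]
  refine Finset.sum_le_sum fun t _ => ?_
  rw [monomial_mul, nuP_monomial hν,
    Finsupp.sum_add_index' (fun _ => rfl) (fun _ _ _ => rfl), pow_add]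
  have h1 : ν (a * Q.coeff t) ≤ ν a * ν (Q.coeff t) := hν.mul_le _ _
  have h2 : 0 ≤ ρ ^ (s.sum fun _ e => e) * ρ ^ (t.sum fun _ e => e) := by positivity
  calc ν (a * Q.coeff t) * (ρ ^ (s.sum fun _ e => e) * ρ ^ (t.sum fun _ e => e))
      ≤ ν a * ν (Q.coeff t) * (ρ ^ (s.sum fun _ e => e) * ρ ^ (t.sum fun _ e => e)) :=
        mul_le_mul_of_nonneg_right h1 h2
    _ = _ := by ring

theorem nuP_mul_le {σ : Type*} {ν : R → ℝ} (hν : IsNu ν) {ρ : ℝ} (hρ : 0 ≤ ρ)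
    (P Q : MvPolynomial σ R) : nuP ν ρ (P * Q) ≤ nuP ν ρ P * nuP ν ρ Q := by
  classical
  have h1 : P * Q = ∑ s ∈ P.support, monomial s (P.coeff s) * Q := by
    conv_lhs => rw [P.as_sum, Finset.sum_mul]
  rw [h1]
  refine (nuP_sum_le hν hρ _ _).trans ?_
  refine (Finset.sum_le_sum fun s _ => nuP_monomial_mul_le hν hρ s _ Q).trans ?_
  rw [← Finset.sum_mul]
  rfl

theorem IsNu.nuP {σ : Type*} {ν : R → ℝ} (hν : IsNu ν) {ρ : ℝ} (hρ : 0 ≤ ρ) :
    IsNu (Crest.Agent.R316.nuP (σ := σ) ν ρ) where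
  nonneg := nuP_nonneg hν hρ
  zero := nuP_zero ν ρ
  one_le := by
    have := nuP_monomial (σ := σ) hν ρ 0 (1 : R)
    rw [Finsupp.sum_zero_index, pow_zero, mul_one] at this
    change Crest.Agent.R316.nuP ν ρ (monomial 0 1) ≤ 1
    rw [this]; exact hν.one_le
  neg := nuP_neg hν ρ
  add_le := nuP_add_le hν hρ
  mul_le := nuP_mul_le hν hρ

theorem isNu_abs_int : IsNu (fun a : ℤ => |(a : ℝ)|) where
  nonneg a := abs_nonneg _
  zero := by simp
  one_le := by simp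
  neg a := by simp
  add_le a b := by push_cast; exact abs_add_le _ _
  mul_le a b := by push_cast; exact (abs_mul _ _).le

theorem isNu_abs_real : IsNu (fun a : ℝ => |a|) where
  nonneg a := abs_nonneg _
  zero := by simp
  one_le := by simp
  neg a := by simp
  add_le a b := abs_add_le _ _
  mul_le a b := (abs_mul _ _).le

theorem nuP_C {σ : Type*} {ν : R → ℝ} (hν : IsNu ν) (ρ : ℝ) (a : R) :
    nuP (σ := σ) ν ρ (C a) = ν a := by
  have := nuP_monomial (σ := σ) hν ρ 0 a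
  rw [Finsupp.sum_zero_index, pow_zero, mul_one] at this
  exact this

theorem nuP_X_le {σ : Type*} {ν : R → ℝ} (hν : IsNu ν) {ρ : ℝ} (hρ : 0 ≤ ρ) (i : σ) :
    nuP (σ := σ) ν ρ (X i) ≤ ρ := by
  have := nuP_monomial (σ := σ) hν ρ (Finsupp.single i 1) (1 : R)
  rw [Finsupp.sum_single_index rfl, pow_one] at this
  change nuP ν ρ (monomial (Finsupp.single i 1) 1) ≤ ρ
  rw [this]
  exact mul_le_of_le_one_left hρ hν.one_le

/-- coefficients are bounded by the norm (for `1 ≤ ρ`) -/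
theorem nu_coeff_le {σ : Type*} {ν : R → ℝ} (hν : IsNu ν) {ρ : ℝ} (hρ : 1 ≤ ρ)
    (P : MvPolynomial σ R) (s : σ →₀ ℕ) : ν (P.coeff s) ≤ nuP ν ρ P := by
  classical
  by_cases hs : s ∈ P.support
  · have h0 : 0 ≤ ρ := by linarith
    have h1 : ν (P.coeff s) * ρ ^ (s.sum fun _ e => e) ≤ nuP ν ρ P :=
      Finset.single_le_sum (f := fun s => ν (P.coeff s) * ρ ^ (s.sum fun _ e => e))
        (fun t _ => mul_nonneg (hν.nonneg _) (pow_nonneg h0 _)) hs
    refine le_trans ?_ h1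
    exact le_mul_of_one_le_right (hν.nonneg _) (one_le_pow₀ hρ)
  · rw [MvPolynomial.notMem_support_iff] at hs
    rw [hs, hν.zero]
    exact nuP_nonneg hν (by linarith) P

/-- weighted version: `ν(coeff_s) * ρ^{|s|} ≤ ‖P‖_ρ`. -/
theorem nu_coeff_mul_pow_le {σ : Type*} {ν : R → ℝ} (hν : IsNu ν) {ρ : ℝ} (hρ : 0 ≤ ρ)
    (P : MvPolynomial σ R) (s : σ →₀ ℕ) :
    ν (P.coeff s) * ρ ^ (s.sum fun _ e => e) ≤ nuP ν ρ P := by
  classical
  by_cases hs : s ∈ P.support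
  · exact Finset.single_le_sum (f := fun s => ν (P.coeff s) * ρ ^ (s.sum fun _ e => e))
        (fun t _ => mul_nonneg (hν.nonneg _) (pow_nonneg hρ _)) hs
  · rw [MvPolynomial.notMem_support_iff] at hs
    rw [hs, hν.zero, zero_mul]
    exact nuP_nonneg hν hρ P

/-! ### consequences of `IsNu` -/

theorem IsNu.sum_le {ν : R → ℝ} (hν : IsNu ν) {ι : Type*} (s : Finset ι) (f : ι → R) :
    ν (∑ i ∈ s, f i) ≤ ∑ i ∈ s, ν (f i) := by
  classical
  induction s using Finset.induction_on with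
  | empty => simp [hν.zero]
  | insert a s ha ih =>
    rw [Finset.sum_insert ha, Finset.sum_insert ha]
    exact (hν.add_le _ _).trans (add_le_add le_rfl ih)

theorem IsNu.prod_le {ν : R → ℝ} (hν : IsNu ν) {ι : Type*} (s : Finset ι) (f : ι → R) :
    ν (∏ i ∈ s, f i) ≤ ∏ i ∈ s, ν (f i) := by
  classical
  induction s using Finset.induction_on with
  | empty => simpa using hν.one_le
  | insert a s ha ih =>
    rw [Finset.prod_insert ha, Finset.prod_insert ha]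
    exact (hν.mul_le _ _).trans (mul_le_mul_of_nonneg_left ih (hν.nonneg _))

theorem IsNu.pow_le {ν : R → ℝ} (hν : IsNu ν) (a : R) (k : ℕ) : ν (a ^ k) ≤ ν a ^ k := by
  induction k with
  | zero => simpa using hν.one_le
  | succ k ih =>
    rw [pow_succ, pow_succ]
    exact (hν.mul_le _ _).trans (mul_le_mul_of_nonneg_right ih (hν.nonneg _))

theorem IsNu.natCast_le {ν : R → ℝ} (hν : IsNu ν) (a : ℕ) : ν (a : R) ≤ a := by
  induction a with
  | zero => simp [hν.zero]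
  | succ a ih =>
    push_cast
    exact (hν.add_le _ _).trans (add_le_add ih hν.one_le)

theorem IsNu.intCast_le {ν : R → ℝ} (hν : IsNu ν) (a : ℤ) : ν (a : R) ≤ |(a : ℝ)| := by
  obtain ⟨k, rfl | rfl⟩ := Int.eq_nat_or_neg a
  · simpa using hν.natCast_le k
  · push_cast
    rw [hν.neg, abs_neg, Nat.abs_cast]
    exact hν.natCast_le k

theorem IsNu.natCast_mul_le {ν : R → ℝ} (hν : IsNu ν) (k : ℕ) (a : R) :
    ν ((k : R) * a) ≤ k * ν a :=
  (hν.mul_le _ _).trans (mul_le_mul_of_nonneg_right (hν.natCast_le k) (hν.nonneg a))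

/-- the determinant is bounded by the product of the column `ℓ¹`-norms -/
theorem IsNu.det_le {ν : R → ℝ} (hν : IsNu ν) {ι : Type*} [Fintype ι] [DecidableEq ι]
    (M : Matrix ι ι R) {B : ℝ} (hB : ∀ j, ∑ i, ν (M i j) ≤ B) :
    ν M.det ≤ B ^ Fintype.card ι := by
  have h1 : ν M.det ≤ ∑ τ : Equiv.Perm ι, ∏ j, ν (M (τ j) j) := by
    rw [Matrix.det_apply']
    refine (hν.sum_le _ _).trans (Finset.sum_le_sum fun τ _ => ?_)
    have h2 : ν (((Equiv.Perm.sign τ : ℤˣ) : ℤ) * ∏ i, M (τ i) i) = ν (∏ i, M (τ i) i) := by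
      rcases Int.units_eq_one_or (Equiv.Perm.sign τ) with h | h
      · rw [h]; simp
      · rw [h]; simp [hν.neg]
    rw [h2]
    exact hν.prod_le _ _
  refine h1.trans ?_
  let e : Equiv.Perm ι ↪ (ι → ι) := ⟨fun τ => (τ : ι → ι), fun a b h => DFunLike.coe_injective h⟩
  have h3 : ∑ τ : Equiv.Perm ι, ∏ j, ν (M (τ j) j) ≤ ∑ φ : ι → ι, ∏ j, ν (M (φ j) j) := by
    have : ∑ τ : Equiv.Perm ι, ∏ j, ν (M (τ j) j) =
        ∑ φ ∈ (Finset.univ : Finset (Equiv.Perm ι)).map e, ∏ j, ν (M (φ j) j) := by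
      rw [Finset.sum_map]; rfl
    rw [this]
    exact Finset.sum_le_sum_of_subset_of_nonneg (Finset.subset_univ _)
      fun φ _ _ => Finset.prod_nonneg fun j _ => hν.nonneg _
  refine h3.trans ?_
  have h4 : ∑ φ : ι → ι, ∏ j, ν (M (φ j) j) = ∏ j, ∑ i, ν (M i j) := by
    rw [Finset.prod_univ_sum]
    simp
  rw [h4]
  calc ∏ j, ∑ i, ν (M i j) ≤ ∏ _j : ι, B :=
        Finset.prod_le_prod (fun j _ => Finset.sum_nonneg fun i _ => hν.nonneg _)
          fun j _ => hB j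
    _ = B ^ Fintype.card ι := by simp


variable {n m : ℕ} {g : Fin n → MvPolynomial (Fin n) R}

/-- the `ℓ¹` size of the coordinates in the monomial basis -/
noncomputable def coordSize (ν : R → ℝ) (hg : ∀ i, (g i).totalDegree < m) (x : MQ m g) : ℝ :=
  ∑ α, ν ((mbasis hg).repr x α)

theorem coordSize_zero {ν : R → ℝ} (hν : IsNu ν) (hg : ∀ i, (g i).totalDegree < m) :
    coordSize ν hg (0 : MQ m g) = 0 := by
  unfold coordSize
  simp [hν.zero]

theorem coordSize_add_le {ν : R → ℝ} (hν : IsNu ν) (hg : ∀ i, (g i).totalDegree < m)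
    (x y : MQ m g) : coordSize ν hg (x + y) ≤ coordSize ν hg x + coordSize ν hg y := by
  unfold coordSize
  rw [← Finset.sum_add_distrib]
  refine Finset.sum_le_sum fun α _ => ?_
  rw [map_add, Finsupp.add_apply]
  exact hν.add_le _ _

theorem coordSize_sum_le {ν : R → ℝ} (hν : IsNu ν) (hg : ∀ i, (g i).totalDegree < m)
    {ι : Type*} (s : Finset ι) (f : ι → MQ m g) :
    coordSize ν hg (∑ i ∈ s, f i) ≤ ∑ i ∈ s, coordSize ν hg (f i) := by
  classical
  induction s using Finset.induction_on with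
  | empty => simp [coordSize_zero hν]
  | insert a s ha ih =>
    rw [Finset.sum_insert ha, Finset.sum_insert ha]
    exact (coordSize_add_le hν hg _ _).trans (add_le_add le_rfl ih)

theorem coordSize_smul_le {ν : R → ℝ} (hν : IsNu ν) (hg : ∀ i, (g i).totalDegree < m)
    (a : R) (x : MQ m g) : coordSize ν hg (a • x) ≤ ν a * coordSize ν hg x := by
  unfold coordSize
  rw [Finset.mul_sum]
  refine Finset.sum_le_sum fun α _ => ?_
  rw [map_smul, Finsupp.smul_apply, smul_eq_mul]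
  exact hν.mul_le _ _

theorem coordSize_nonneg {ν : R → ℝ} (hν : IsNu ν) (hg : ∀ i, (g i).totalDegree < m)
    (x : MQ m g) : 0 ≤ coordSize ν hg x :=
  Finset.sum_nonneg fun _ _ => hν.nonneg _

theorem coordSize_basis_le {ν : R → ℝ} (hν : IsNu ν) (hg : ∀ i, (g i).totalDegree < m)
    (β : Fin n → Fin m) : coordSize ν hg (mbasis hg β) ≤ 1 := by
  classical
  unfold coordSize
  rw [Finset.sum_eq_single β]
  · rw [Module.Basis.repr_self, Finsupp.single_eq_same]; exact hν.one_le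
  · intro α _ hα
    rw [Module.Basis.repr_self, Finsupp.single_apply, if_neg (Ne.symm hα), hν.zero]
  · simp

/-- degree reduction for monomials -/
theorem coordSize_monomial_le {ν : R → ℝ} (hν : IsNu ν) (hg : ∀ i, (g i).totalDegree < m) {Γ : ℝ}
    (hΓ : 1 ≤ Γ) (hgΓ : ∀ i, nuP ν 1 (g i) ≤ Γ) (d : ℕ) (s : Fin n →₀ ℕ)
    (hs : (s.sum fun _ e => e) ≤ d) :
    coordSize ν hg (Ideal.Quotient.mk (mideal m g) (monomial s 1)) ≤ Γ ^ d := by
  classical
  induction d using Nat.strong_induction_on generalizing s with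
  | _ d ih =>
  by_cases hall : ∀ i, s i < m
  · have h1 : Ideal.Quotient.mk (mideal m g) (monomial s 1) = mbasis hg (fun i => ⟨s i, hall i⟩) := by
      rw [mbasis_apply]
      congr 1
      rw [MvPolynomial.monomial_eq, C_1, one_mul, Finsupp.prod_fintype _ _ (by simp)]
    rw [h1]
    exact (coordSize_basis_le hν hg _).trans (one_le_pow₀ hΓ)
  · push Not at hall
    obtain ⟨i, hi⟩ := hall
    have hle : Finsupp.single i m ≤ s := by
      rw [Finsupp.single_le_iff]; exact hi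
    obtain ⟨t, rfl⟩ : ∃ t, s = t + Finsupp.single i m := ⟨s - Finsupp.single i m, by
      rw [tsub_add_cancel_of_le hle]⟩
    have hm : 0 < m := lt_of_le_of_lt (Nat.zero_le _) (hg i)
    have hsum : ((t + Finsupp.single i m).sum fun _ e => e) = (t.sum fun _ e => e) + m := by
      rw [Finsupp.sum_add_index' (fun _ => rfl) (fun _ _ _ => rfl), Finsupp.sum_single_index rfl]
    rw [hsum] at hs
    have h1 : Ideal.Quotient.mk (mideal m g) (monomial (t + Finsupp.single i m) 1) =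
        Ideal.Quotient.mk (mideal m g) (monomial t 1 * g i) := by
      have h2 : (monomial (t + Finsupp.single i m) (1 : R)) = monomial t 1 * X i ^ m := by
        rw [X_pow_eq_monomial, monomial_mul, one_mul]
      rw [h2, map_mul, map_mul]
      congr 1
      rw [Ideal.Quotient.eq]
      exact Ideal.subset_span ⟨i, rfl⟩
    rw [h1]
    conv_lhs => rw [(g i).as_sum, Finset.mul_sum, map_sum]
    refine (coordSize_sum_le hν hg _ _).trans ?_
    have h3 : ∀ u ∈ (g i).support,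
        coordSize ν hg (Ideal.Quotient.mk (mideal m g) (monomial t 1 * monomial u ((g i).coeff u)))
          ≤ ν ((g i).coeff u) * Γ ^ (d - 1) := by
      intro u hu
      have h4 : monomial t (1 : R) * monomial u ((g i).coeff u) =
          (g i).coeff u • monomial (t + u) (1 : R) := by
        rw [monomial_mul, one_mul, smul_monomial, smul_eq_mul, mul_one]
      rw [h4, ← Ideal.Quotient.mkₐ_eq_mk R, map_smul]
      refine (coordSize_smul_le hν hg _ _).trans ?_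
      refine mul_le_mul_of_nonneg_left ?_ (hν.nonneg _)
      rw [Ideal.Quotient.mkₐ_eq_mk]
      apply ih (d - 1) (by omega)
      rw [Finsupp.sum_add_index' (fun _ => rfl) (fun _ _ _ => rfl)]
      have h5 : (u.sum fun _ e => e) ≤ (g i).totalDegree := MvPolynomial.le_totalDegree hu
      have h6 := hg i
      omega
    refine (Finset.sum_le_sum h3).trans ?_
    rw [← Finset.sum_mul]
    have h7 : ∑ u ∈ (g i).support, ν ((g i).coeff u) ≤ Γ := by
      refine le_trans (le_of_eq ?_) (hgΓ i)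
      unfold nuP
      simp
    have h8 : Γ ^ d = Γ * Γ ^ (d - 1) := by
      rw [← pow_succ']; congr 1; omega
    rw [h8]
    exact mul_le_mul_of_nonneg_right h7 (by positivity)

/-- degree reduction -/
theorem coordSize_mk_le {ν : R → ℝ} (hν : IsNu ν) (hg : ∀ i, (g i).totalDegree < m) {Γ : ℝ}
    (hΓ : 1 ≤ Γ) (hgΓ : ∀ i, nuP ν 1 (g i) ≤ Γ) (P : MvPolynomial (Fin n) R) (d : ℕ)
    (hd : P.totalDegree ≤ d) :
    coordSize ν hg (Ideal.Quotient.mk (mideal m g) P) ≤ nuP ν 1 P * Γ ^ d := by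
  classical
  conv_lhs => rw [P.as_sum, map_sum]
  refine (coordSize_sum_le hν hg _ _).trans ?_
  unfold nuP
  rw [Finset.sum_mul]
  refine Finset.sum_le_sum fun s hs => ?_
  have h4 : monomial s (P.coeff s) = P.coeff s • monomial s (1 : R) := by
    rw [smul_monomial, smul_eq_mul, mul_one]
  rw [h4, ← Ideal.Quotient.mkₐ_eq_mk R, map_smul, one_pow, mul_one]
  refine (coordSize_smul_le hν hg _ _).trans ?_
  refine mul_le_mul_of_nonneg_left ?_ (hν.nonneg _)
  rw [Ideal.Quotient.mkₐ_eq_mk]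
  exact coordSize_monomial_le hν hg hΓ hgΓ d s ((MvPolynomial.le_totalDegree hs).trans hd)

/-- bound for the columns of the multiplication matrix -/
theorem mmat_col_bound {ν : R → ℝ} (hν : IsNu ν) (hg : ∀ i, (g i).totalDegree < m) {Γ : ℝ}
    (hΓ : 1 ≤ Γ) (hgΓ : ∀ i, nuP ν 1 (g i) ≤ Γ) (G : MvPolynomial (Fin n) R)
    (β : Fin n → Fin m) :
    ∑ α, ν (mmat hg G α β) ≤ nuP ν 1 G * Γ ^ (G.totalDegree + n * m) := by
  classical
  have h1 : ∑ α, ν (mmat hg G α β) =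
      coordSize ν hg (Ideal.Quotient.mk (mideal m g) (G * ∏ i, X i ^ (β i : ℕ))) := by
    unfold coordSize mmat
    refine Finset.sum_congr rfl fun α _ => ?_
    rw [Algebra.leftMulMatrix_eq_repr_mul, mbasis_apply, ← map_mul]
  rw [h1]
  have h2 : (∏ i, X i ^ (β i : ℕ) : MvPolynomial (Fin n) R) =
      monomial (Finsupp.equivFunOnFinite.symm fun i => (β i : ℕ)) 1 := by
    rw [MvPolynomial.monomial_eq, C_1, one_mul, Finsupp.prod_fintype _ _ (by simp)]
    simp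
  have hdeg : (G * ∏ i, X i ^ (β i : ℕ)).totalDegree ≤ G.totalDegree + n * m := by
    refine (totalDegree_mul _ _).trans (Nat.add_le_add_left ?_ _)
    refine (totalDegree_finsetProd _ _).trans ?_
    calc ∑ i : Fin n, (X i ^ (β i : ℕ) : MvPolynomial (Fin n) R).totalDegree
        ≤ ∑ _i : Fin n, m := Finset.sum_le_sum fun i _ => by
          have h3 : (X i ^ (β i : ℕ) : MvPolynomial (Fin n) R).totalDegree ≤ (β i : ℕ) * 1 := by
            refine (totalDegree_pow _ _).trans (Nat.mul_le_mul_left _ ?_)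
            rcases subsingleton_or_nontrivial R with h | h
            · have : (X i : MvPolynomial (Fin n) R) = 0 := Subsingleton.elim _ _
              rw [this]; simp
            · rw [totalDegree_X]
          have h4 := (β i).isLt
          omega
      _ = n * m := by simp
  refine (coordSize_mk_le hν hg hΓ hgΓ _ _ hdeg).trans ?_
  refine mul_le_mul_of_nonneg_right ?_ (by positivity)
  refine (nuP_mul_le hν zero_le_one _ _).trans ?_
  have h5 : nuP ν 1 (∏ i, X i ^ (β i : ℕ) : MvPolynomial (Fin n) R) ≤ 1 := by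
    rw [h2, nuP_monomial hν, one_pow, mul_one]; exact hν.one_le
  exact mul_le_of_le_one_right (nuP_nonneg hν zero_le_one G) h5

/-- bound for the norm -/
theorem mnorm_bound {ν : R → ℝ} (hν : IsNu ν) (hg : ∀ i, (g i).totalDegree < m) {Γ : ℝ}
    (hΓ : 1 ≤ Γ) (hgΓ : ∀ i, nuP ν 1 (g i) ≤ Γ) (G : MvPolynomial (Fin n) R) :
    ν (mnorm m g G) ≤ (nuP ν 1 G * Γ ^ (G.totalDegree + n * m)) ^ (m ^ n) := by
  classical
  rw [mnorm_eq_det hg]
  refine (hν.det_le (mmat hg G) (mmat_col_bound hν hg hΓ hgΓ G)).trans (le_of_eq ?_)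
  simp

/-- the trace bound -/
theorem mtrace_bound {ν : R → ℝ} (hν : IsNu ν) (hg : ∀ i, (g i).totalDegree < m) {Γ : ℝ}
    (hΓ : 1 ≤ Γ) (hgΓ : ∀ i, nuP ν 1 (g i) ≤ Γ) (G : MvPolynomial (Fin n) R) :
    ν (mtrace m g G) ≤ (m : ℝ) ^ n * (nuP ν 1 G * Γ ^ (G.totalDegree + n * m)) := by
  classical
  rw [mtrace_eq hg, Matrix.trace]
  refine (hν.sum_le _ _).trans ?_
  calc ∑ i, ν ((mmat hg G).diag i)
      ≤ ∑ _i : Fin n → Fin m, nuP ν 1 G * Γ ^ (G.totalDegree + n * m) :=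
        Finset.sum_le_sum fun β _ => by
          refine le_trans ?_ (mmat_col_bound hν hg hΓ hgΓ G β)
          exact Finset.single_le_sum (f := fun α => ν (mmat hg G α β))
            (fun α _ => hν.nonneg _) (Finset.mem_univ β)
    _ = _ := by simp


/-! ### the uniform "size class" `Bd` for integer polynomials at one or several levels.
`Bd P c E` : for all `ρ ≥ 1`, `‖P‖_ρ ≤ c ρ^E` where all variables of all levels have weight `ρ`. -/

/-- rings with a compatible family of weighted norms -/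
class HasNu (R : Type*) [CommRing R] where
  nu : ℝ → R → ℝ
  isNu : ∀ ρ : ℝ, 1 ≤ ρ → IsNu (nu ρ)

noncomputable instance : HasNu ℤ where
  nu _ a := |(a : ℝ)|
  isNu _ _ := isNu_abs_int

noncomputable instance {σ : Type*} [HasNu R] : HasNu (MvPolynomial σ R) where
  nu ρ := nuP (HasNu.nu ρ) ρ
  isNu ρ hρ := (HasNu.isNu ρ hρ).nuP (by linarith)

/-- size class -/
def Bd {R : Type*} [CommRing R] [HasNu R] (P : R) (c : ℝ) (E : ℕ) : Prop :=
  ∀ ρ : ℝ, 1 ≤ ρ → HasNu.nu ρ P ≤ c * ρ ^ E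

section Bd
variable [HasNu R]

theorem Bd.mono {P : R} {c c' : ℝ} {E E' : ℕ} (h : Bd P c E) (hc : c ≤ c') (hc' : 0 ≤ c')
    (hE : E ≤ E') : Bd P c' E' := by
  intro ρ hρ
  refine (h ρ hρ).trans ?_
  have h1 : ρ ^ E ≤ ρ ^ E' := pow_le_pow_right₀ hρ hE
  have h2 : 0 ≤ ρ ^ E := by positivity
  exact (mul_le_mul_of_nonneg_right hc h2).trans (mul_le_mul_of_nonneg_left h1 hc')

theorem Bd.nonneg {P : R} {c : ℝ} {E : ℕ} (h : Bd P c E) : 0 ≤ c := by
  have h1 := h 1 le_rfl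
  rw [one_pow, mul_one] at h1
  exact ((HasNu.isNu 1 le_rfl).nonneg P).trans h1

theorem Bd.add {P Q : R} {c c' : ℝ} {E E' : ℕ} (h : Bd P c E) (h' : Bd Q c' E') :
    Bd (P + Q) (c + c') (max E E') := by
  intro ρ hρ
  refine ((HasNu.isNu ρ hρ).add_le _ _).trans ?_
  rw [add_mul]
  exact add_le_add ((h.mono le_rfl h.nonneg (le_max_left E E')) ρ hρ)
    ((h'.mono le_rfl h'.nonneg (le_max_right E E')) ρ hρ)

theorem Bd.neg {P : R} {c : ℝ} {E : ℕ} (h : Bd P c E) : Bd (-P) c E := by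
  intro ρ hρ
  rw [(HasNu.isNu ρ hρ).neg]
  exact h ρ hρ

theorem Bd.sub {P Q : R} {c c' : ℝ} {E E' : ℕ} (h : Bd P c E) (h' : Bd Q c' E') :
    Bd (P - Q) (c + c') (max E E') := by
  rw [sub_eq_add_neg]
  exact h.add h'.neg

theorem Bd.mul {P Q : R} {c c' : ℝ} {E E' : ℕ} (h : Bd P c E) (h' : Bd Q c' E') :
    Bd (P * Q) (c * c') (E + E') := by
  intro ρ hρ
  refine ((HasNu.isNu ρ hρ).mul_le _ _).trans ?_
  have h1 := h ρ hρ
  have h2 := h' ρ hρ
  have h3 := (HasNu.isNu ρ hρ).nonneg Q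
  have h4 : 0 ≤ c * ρ ^ E := mul_nonneg h.nonneg (by positivity)
  calc HasNu.nu ρ P * HasNu.nu ρ Q ≤ (c * ρ ^ E) * (c' * ρ ^ E') :=
        mul_le_mul h1 h2 h3 h4
    _ = c * c' * ρ ^ (E + E') := by rw [pow_add]; ring

theorem bd_one : Bd (1 : R) 1 0 := by
  intro ρ hρ
  simpa using (HasNu.isNu (R := R) ρ hρ).one_le

theorem Bd.pow {P : R} {c : ℝ} {E : ℕ} (h : Bd P c E) (k : ℕ) :
    Bd (P ^ k) (c ^ k) (E * k) := by
  induction k with
  | zero => simpa using bd_one (R := R)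
  | succ k ih =>
    rw [pow_succ, pow_succ, Nat.mul_succ]
    exact ih.mul h

theorem bd_zero {c : ℝ} (hc : 0 ≤ c) (E : ℕ) : Bd (0 : R) c E := by
  intro ρ hρ
  rw [(HasNu.isNu ρ hρ).zero]
  positivity

theorem Bd.sum {ι : Type*} (s : Finset ι) {P : ι → R} {c : ℝ} {E : ℕ} (hc : 0 ≤ c)
    (h : ∀ i ∈ s, Bd (P i) c E) : Bd (∑ i ∈ s, P i) (s.card * c) E := by
  intro ρ hρ
  refine ((HasNu.isNu ρ hρ).sum_le _ _).trans ?_
  refine (Finset.sum_le_sum fun i hi => h i hi ρ hρ).trans (le_of_eq ?_)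
  rw [Finset.sum_const, nsmul_eq_mul, mul_assoc]

theorem Bd.prod {ι : Type*} (s : Finset ι) {P : ι → R} {c : ℝ} {E : ℕ}
    (h : ∀ i ∈ s, Bd (P i) c E) : Bd (∏ i ∈ s, P i) (c ^ s.card) (E * s.card) := by
  intro ρ hρ
  refine ((HasNu.isNu ρ hρ).prod_le _ _).trans ?_
  refine (Finset.prod_le_prod (fun i _ => (HasNu.isNu ρ hρ).nonneg _)
    fun i hi => h i hi ρ hρ).trans (le_of_eq ?_)
  rw [Finset.prod_const, mul_pow, ← pow_mul]

theorem bd_natCast (a : ℕ) : Bd (a : R) a 0 := by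
  intro ρ hρ
  simpa using (HasNu.isNu (R := R) ρ hρ).natCast_le a

theorem bd_intCast (a : ℤ) : Bd (a : R) |(a : ℝ)| 0 := by
  intro ρ hρ
  simpa using (HasNu.isNu (R := R) ρ hρ).intCast_le a

variable {σ : Type*}

theorem Bd.C {P : R} {c : ℝ} {E : ℕ} (h : Bd P c E) :
    Bd (MvPolynomial.C P : MvPolynomial σ R) c E := by
  intro ρ hρ
  change nuP (HasNu.nu ρ) ρ (MvPolynomial.C P) ≤ _
  rw [nuP_C (HasNu.isNu ρ hρ)]
  exact h ρ hρ

theorem bd_X (i : σ) : Bd (X i : MvPolynomial σ R) 1 1 := by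
  intro ρ hρ
  change nuP (HasNu.nu ρ) ρ (X i) ≤ _
  rw [one_mul, pow_one]
  exact nuP_X_le (HasNu.isNu ρ hρ) (by linarith) i

theorem Bd.coeff {P : MvPolynomial σ R} {c : ℝ} {E : ℕ} (h : Bd P c E) (s : σ →₀ ℕ) :
    Bd (P.coeff s) c E := by
  intro ρ hρ
  exact (nu_coeff_le (HasNu.isNu ρ hρ) hρ P s).trans (h ρ hρ)

theorem Bd.pderiv {P : MvPolynomial σ R} {c : ℝ} {E : ℕ} (h : Bd P c E)
    (hd : P.totalDegree ≤ E) (i : σ) : Bd (MvPolynomial.pderiv i P) (E * c) E := by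
  classical
  intro ρ hρ
  have hν := HasNu.isNu (R := R) ρ hρ
  have hρ0 : 0 ≤ ρ := by linarith
  change nuP (HasNu.nu ρ) ρ (MvPolynomial.pderiv i P) ≤ _
  have h1 : nuP (HasNu.nu ρ) ρ (MvPolynomial.pderiv i P) ≤ E * nuP (HasNu.nu ρ) ρ P := by
    conv_lhs => rw [P.as_sum, map_sum]
    refine (nuP_sum_le hν hρ0 _ _).trans ?_
    conv_rhs => rw [nuP]
    rw [Finset.mul_sum]
    refine Finset.sum_le_sum fun s hs => ?_
    rw [pderiv_monomial, nuP_monomial hν]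
    have h2 : s i ≤ E := by
      refine le_trans ?_ ((MvPolynomial.le_totalDegree hs).trans hd)
      by_cases hi : i ∈ s.support
      · exact Finset.single_le_sum (f := fun j => s j) (fun _ _ => Nat.zero_le _) hi
      · rw [Finsupp.notMem_support_iff] at hi
        rw [hi]; exact Nat.zero_le _
    have h3 : (s - Finsupp.single i 1).sum (fun _ e => e) ≤ s.sum fun _ e => e := by
      have h4 : s - Finsupp.single i 1 ≤ s := tsub_le_self
      obtain ⟨u, hu⟩ := exists_add_of_le h4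
      conv_rhs => rw [hu]
      rw [Finsupp.sum_add_index' (fun _ => rfl) (fun _ _ _ => rfl)]
      exact Nat.le_add_right _ _
    have h5 : HasNu.nu ρ (P.coeff s * (s i : R)) ≤ E * HasNu.nu ρ (P.coeff s) := by
      rw [mul_comm]
      refine (hν.natCast_mul_le _ _).trans ?_
      exact mul_le_mul_of_nonneg_right (by exact_mod_cast h2) (hν.nonneg _)
    have h6 : ρ ^ ((s - Finsupp.single i 1).sum fun _ e => e) ≤ ρ ^ (s.sum fun _ e => e) :=
      pow_le_pow_right₀ hρ h3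
    calc HasNu.nu ρ (P.coeff s * (s i : R)) * ρ ^ ((s - Finsupp.single i 1).sum fun _ e => e)
        ≤ (E * HasNu.nu ρ (P.coeff s)) * ρ ^ (s.sum fun _ e => e) :=
          mul_le_mul h5 h6 (by positivity) (mul_nonneg (Nat.cast_nonneg _) (hν.nonneg _))
      _ = _ := by ring
  refine h1.trans ?_
  rw [mul_assoc]
  exact mul_le_mul_of_nonneg_left (h ρ hρ) (Nat.cast_nonneg _)

omit [HasNu R] in
theorem nuP_mono {ν : R → ℝ} (hν : IsNu ν) {ρ ρ' : ℝ} (hρ : 0 ≤ ρ) (h : ρ ≤ ρ')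
    (P : MvPolynomial σ R) : nuP ν ρ P ≤ nuP ν ρ' P :=
  Finset.sum_le_sum fun _ _ => mul_le_mul_of_nonneg_left (pow_le_pow_left₀ hρ h _) (hν.nonneg _)

/-- norm in the size class -/
theorem Bd.mnorm (hg : ∀ i, (g i).totalDegree < m) {Γ : ℝ} {EΓ : ℕ} (hΓ : 1 ≤ Γ)
    (hgΓ : ∀ i, Bd (g i) Γ EΓ) {G : MvPolynomial (Fin n) R} {c : ℝ} {E : ℕ}
    (hG : Bd G c E) :
    Bd (mnorm m g G) ((c * Γ ^ (G.totalDegree + n * m)) ^ (m ^ n))
      ((E + EΓ * (G.totalDegree + n * m)) * m ^ n) := by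
  intro ρ hρ
  have hν := HasNu.isNu (R := R) ρ hρ
  have h1 : ∀ i, nuP (HasNu.nu ρ) 1 (g i) ≤ Γ * ρ ^ EΓ := fun i =>
    (nuP_mono hν zero_le_one hρ (g i)).trans (hgΓ i ρ hρ)
  have h2 : (1 : ℝ) ≤ Γ * ρ ^ EΓ := by
    have : (1 : ℝ) ≤ ρ ^ EΓ := one_le_pow₀ hρ
    nlinarith
  refine (mnorm_bound hν hg h2 h1 G).trans ?_
  have h3 : nuP (HasNu.nu ρ) 1 G ≤ c * ρ ^ E := (nuP_mono hν zero_le_one hρ G).trans (hG ρ hρ)
  have h4 : (c * Γ ^ (G.totalDegree + n * m)) ^ (m ^ n) *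
      ρ ^ ((E + EΓ * (G.totalDegree + n * m)) * m ^ n) =
      (c * ρ ^ E * (Γ * ρ ^ EΓ) ^ (G.totalDegree + n * m)) ^ (m ^ n) := by
    rw [pow_mul, ← mul_pow, pow_add, pow_mul, mul_pow Γ]
    congr 1
    ring
  rw [h4]
  refine pow_le_pow_left₀ (mul_nonneg (nuP_nonneg hν zero_le_one G) (by positivity)) ?_ _
  exact mul_le_mul_of_nonneg_right h3 (by positivity)

end Bd

/-- comparison of exponents -/
theorem exp_le_of_forall_pow_le {c : ℝ} {a b : ℕ} (h : ∀ ρ : ℝ, 1 ≤ ρ → ρ ^ a ≤ c * ρ ^ b) :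
    a ≤ b := by
  by_contra hab
  push Not at hab
  have hc : 0 ≤ c := by
    have := h 1 le_rfl
    rw [one_pow, one_pow, mul_one] at this
    linarith
  have h1 := h (c + 1) (by linarith)
  have h2 : (c + 1) ^ (b + 1) ≤ (c + 1) ^ a := pow_le_pow_right₀ (by linarith) hab
  have h3 : 0 < (c + 1) ^ b := by positivity
  rw [pow_succ'] at h2
  nlinarith

theorem totalDegree_le_of_nu {σ : Type*} {R : Type*} [CommRing R] [HasNu R]
    (h1 : ∀ a : R, a ≠ 0 → ∀ ρ : ℝ, 1 ≤ ρ → 1 ≤ HasNu.nu ρ a)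
    {P : MvPolynomial σ R} {c : ℝ} {E : ℕ} (h : Bd P c E) :
    P.totalDegree ≤ E := by
  classical
  refine Finset.sup_le fun s hs => ?_
  refine exp_le_of_forall_pow_le (c := c) fun ρ hρ => ?_
  refine le_trans ?_ (h ρ hρ)
  have h2 := nu_coeff_mul_pow_le (HasNu.isNu (R := R) ρ hρ) (by linarith : (0:ℝ) ≤ ρ) P s
  refine le_trans ?_ h2
  exact le_mul_of_one_le_left (by positivity) (h1 _ (MvPolynomial.mem_support_iff.mp hs) ρ hρ)

theorem one_le_nu_int (a : ℤ) (ha : a ≠ 0) (ρ : ℝ) : 1 ≤ HasNu.nu ρ a := by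
  change 1 ≤ |(a : ℝ)|
  exact_mod_cast Int.one_le_abs ha

theorem one_le_nu_mvPolynomial {σ : Type*} {R : Type*} [CommRing R] [HasNu R]
    (h1 : ∀ a : R, a ≠ 0 → ∀ ρ : ℝ, 1 ≤ ρ → 1 ≤ HasNu.nu ρ a)
    (P : MvPolynomial σ R) (hP : P ≠ 0) (ρ : ℝ) (hρ : 1 ≤ ρ) : 1 ≤ HasNu.nu ρ P := by
  obtain ⟨s, hs⟩ := MvPolynomial.ne_zero_iff.mp hP
  exact (h1 _ hs ρ hρ).trans (nu_coeff_le (HasNu.isNu ρ hρ) hρ P s)

/-- for integer polynomials: degree bound from `Bd` -/
theorem Bd.totalDegree_le {σ : Type*} {P : MvPolynomial σ ℤ} {c : ℝ} {E : ℕ} (h : Bd P c E) :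
    P.totalDegree ≤ E :=
  totalDegree_le_of_nu (fun a ha ρ _ => one_le_nu_int a ha ρ) h

theorem Bd.totalDegree_le₂ {σ τ : Type*} {P : MvPolynomial σ (MvPolynomial τ ℤ)} {c : ℝ} {E : ℕ}
    (h : Bd P c E) : P.totalDegree ≤ E :=
  totalDegree_le_of_nu (one_le_nu_mvPolynomial fun a ha ρ _ => one_le_nu_int a ha ρ) h

theorem Bd.totalDegree_le₃ {σ τ υ : Type*}
    {P : MvPolynomial σ (MvPolynomial τ (MvPolynomial υ ℤ))} {c : ℝ} {E : ℕ}
    (h : Bd P c E) : P.totalDegree ≤ E :=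
  totalDegree_le_of_nu (one_le_nu_mvPolynomial
    (one_le_nu_mvPolynomial fun a ha ρ _ => one_le_nu_int a ha ρ)) h

/-- coefficient bound -/
theorem Bd.abs_coeff_le {σ : Type*} {P : MvPolynomial σ ℤ} {c : ℝ} {E : ℕ} (h : Bd P c E)
    (s : σ →₀ ℕ) : |((P.coeff s : ℤ) : ℝ)| ≤ c := by
  have h1 := h 1 le_rfl
  rw [one_pow, mul_one] at h1
  exact (nu_coeff_le isNu_abs_int le_rfl P s).trans h1

/-- evaluation bound for a weighted norm -/
theorem abs_aeval_le_nuP {σ : Type*} (P : MvPolynomial σ ℤ) {ρ : ℝ} {x : σ → ℝ}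
    (hx : ∀ i, |x i| ≤ ρ) : |aeval x P| ≤ nuP (fun a : ℤ => |(a : ℝ)|) ρ P := by
  classical
  conv_lhs => rw [P.as_sum, map_sum]
  refine (Finset.abs_sum_le_sum_abs _ _).trans ?_
  unfold nuP
  refine Finset.sum_le_sum fun s _ => ?_
  rw [aeval_monomial, abs_mul]
  have h1 : |(algebraMap ℤ ℝ) (coeff s P)| = |((coeff s P : ℤ) : ℝ)| := by simp
  rw [h1]
  refine mul_le_mul_of_nonneg_left ?_ (abs_nonneg _)
  rw [Finsupp.prod, Finset.abs_prod, Finsupp.sum, ← Finset.prod_pow_eq_pow_sum]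
  refine Finset.prod_le_prod (fun _ _ => abs_nonneg _) fun i _ => ?_
  rw [abs_pow]
  exact pow_le_pow_left₀ (abs_nonneg _) (hx i) _

/-- evaluation bound -/
theorem Bd.abs_aeval_le {σ : Type*} {P : MvPolynomial σ ℤ} {c : ℝ} {E : ℕ} (h : Bd P c E)
    {ρ : ℝ} (hρ : 1 ≤ ρ) {x : σ → ℝ} (hx : ∀ i, |x i| ≤ ρ) : |aeval x P| ≤ c * ρ ^ E :=
  (abs_aeval_le_nuP P hx).trans (h ρ hρ)

end Crest.Agent.R316
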