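import Crest.Agent.R316.Alg.Basis
import Crest.Agent.R316.Alg.NormBound

/-!
# R316 / Alg / Fam : the concrete polynomials of the proof (definitions only, plus specialisation)

`f : Zxy n` is the polynomial of the sentence, `f ≥ 0` on reals, degree `≤ 4` in `y`.
Parameters `p : Fin 5` : `0 ↦ R₀, 1 ↦ Γ, 2 ↦ Z, 3 ↦ A, 4 ↦ z`.
-/

set_option autoImplicit false

namespace Crest.Agent.R316

open MvPolynomial

/-- `ℤ[x]` -/
abbrev Zx (n : ℕ) := MvPolynomial (Fin n) ℤ

/-- `ℤ[x][y]` -/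
abbrev Zxy (n : ℕ) := MvPolynomial (Fin n) (Zx n)

/-- parameter polynomials `ℤ[R₀, Γ, Z, A, z]` -/
abbrev PP := MvPolynomial (Fin 5) ℤ

variable {n : ℕ}

/-- evaluation of `ℤ[x]` at a point of a commutative ring -/
noncomputable def xhom {σ : Type*} {A : Type*} [CommRing A] (x : σ → A) :
    MvPolynomial σ ℤ →+* A :=
  eval₂Hom (Int.castRingHom A) x

/-- value of a two-level polynomial -/
noncomputable def ev2 {A : Type*} [CommRing A] (x y : Fin n → A) (f : Zxy n) : A :=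
  eval y (map (xhom x) f)

/-- `f' = f * (1 + ∑ y_j²)^(3·5^n)` -/
noncomputable def fp (f : Zxy n) : Zxy n := f * (1 + ∑ j, X j ^ 2) ^ (3 * 5 ^ n)

/-- half of the even exponent of the inner penalty -/
def dI (n : ℕ) : ℕ := 3 * 5 ^ n + 3

/-- the exponent of the inner monic system -/
def mI (n : ℕ) : ℕ := 2 * dI n - 1

section generic
variable {A : Type*} [CommRing A]

/-- right-hand sides of the inner monic system `y_j^(2D-1) = -(ZΓ) ∂_j f' - 1` -/
noncomputable def innerG (φ : Zx n →+* A) (Γ Z : A) (f : Zxy n) :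
    Fin n → MvPolynomial (Fin n) A :=
  fun j => -(C (Z * Γ) * pderiv j (map φ (fp f))) - 1

/-- the penalty `∑_j (y_j^(2D) + 2D y_j + 2D)` -/
noncomputable def pen (A : Type*) [CommRing A] (n : ℕ) : MvPolynomial (Fin n) A :=
  ∑ j, (X j ^ (2 * dI n) + C (2 * (dI n : A)) * X j + C (2 * (dI n : A)))

/-- the inner objective `H = 2D Z (Γ f' - 1) + pen` -/
noncomputable def innerH (φ : Zx n →+* A) (Γ Z : A) (f : Zxy n) : MvPolynomial (Fin n) A :=
  C (2 * (dI n : A) * Z) * (C Γ * map φ (fp f) - 1) + pen A n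

/-- `V = Norm(H)` -/
noncomputable def innerV (φ : Zx n →+* A) (Γ Z : A) (f : Zxy n) : A :=
  mnorm (mI n) (innerG φ Γ Z f) (innerH φ Γ Z f)

/-- `D_in = Norm(Jacobian)` -/
noncomputable def innerD (φ : Zx n →+* A) (Γ Z : A) (f : Zxy n) : A :=
  mnorm (mI n) (innerG φ Γ Z f) (mjac (mI n) (innerG φ Γ Z f))

end generic

/-- the embedding `ℤ[x] → ℤ[p][x]` -/
noncomputable def xlift (n : ℕ) : Zx n →+* MvPolynomial (Fin n) PP :=
  map (C : ℤ →+* PP)

/-- `Q = (R₀² - |x|²) V(x) D_in(x)` over `ℤ[p]` -/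
noncomputable def outQ (f : Zxy n) : MvPolynomial (Fin n) PP :=
  (C (X 0 ^ 2) - ∑ i, X i ^ 2) * innerV (xlift n) (C (X 1)) (C (X 2)) f *
    innerD (xlift n) (C (X 1)) (C (X 2)) f

/-- outer system over `ℤ[p]` : `x_i^(2M-1) = zA ∂_i(Q²) - z` -/
noncomputable def outG (f : Zxy n) : Fin n → MvPolynomial (Fin n) PP :=
  fun i => C (X 4 * X 3) * pderiv i (outQ f ^ 2) - C (X 4)

/-- discriminant of the outer system, `∈ ℤ[p]` -/
noncomputable def outDisc (M : ℕ) (f : Zxy n) : PP :=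
  mnorm (2 * M - 1) (outG f) (mjac (2 * M - 1) (outG f))

/-! ### specialisations at a parameter point of a ring `A` -/

section spec
variable {A : Type*} [CommRing A]

/-- `Q_p ∈ A[x]` -/
noncomputable def QO (p : Fin 5 → A) (f : Zxy n) : MvPolynomial (Fin n) A :=
  map (xhom p) (outQ f)

/-- outer system at `p` -/
noncomputable def gO (p : Fin 5 → A) (f : Zxy n) : Fin n → MvPolynomial (Fin n) A :=
  fun i => map (xhom p) (outG f i)

/-- inner system at `(p,x)` -/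
noncomputable def gI (p : Fin 5 → A) (x : Fin n → A) (f : Zxy n) :
    Fin n → MvPolynomial (Fin n) A :=
  innerG (xhom x) (p 1) (p 2) f

/-- inner objective at `(p,x)` -/
noncomputable def HI (p : Fin 5 → A) (x : Fin n → A) (f : Zxy n) : MvPolynomial (Fin n) A :=
  innerH (xhom x) (p 1) (p 2) f

end spec

/-- the predicate `E(p)` for real parameters -/
def EE (M : ℕ) (f : Zxy n) (p : Fin 5 → ℝ) : Prop :=
  ∃ x : Fin n → ℝ, msol (2 * M - 1) (gO p f) x ∧ ∑ i, x i ^ 2 < p 0 ^ 2 ∧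
    ∀ y : Fin n → ℝ, 0 < eval y (HI p x f)

/-- the truth of the `∃∀` statement -/
def Truth (f : Zxy n) : Prop :=
  ∃ x : Fin n → ℝ, ∀ y : Fin n → ℝ, ev2 x y f ≠ 0

/-- parameter region: `C ≤ p₀`, each later parameter at least the `E`-th power of the product of
all previous ones. -/
def Reg (C : ℝ) (E : ℕ) : Set (Fin 5 → ℝ) :=
  {p | C ≤ p 0 ∧ p 0 ^ E ≤ p 1 ∧ (p 0 * p 1) ^ E ≤ p 2 ∧ (p 0 * p 1 * p 2) ^ E ≤ p 3 ∧
    (p 0 * p 1 * p 2 * p 3) ^ E ≤ p 4}

/-! ### the numerical test at an integer parameter point `p : Fin 5 → ℕ` -/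

/-- parameters of one existence test: `K, e` (sign approximation), `T0` (scaling), `B` (seed bound),
`L` (big weight) -/
structure TPar where
  K : ℕ
  e : ℕ
  T0 : ℕ
  B : ℕ
  L : ℕ

/-- decode a seed number into `(p,a,v,c)` with `p,a < 2B`, `v < L`, `c ≤ D` -/
def seedOf (B L D s : ℕ) : ℕ × ℕ × ℕ × ℕ :=
  (s % (2 * B), s / (2 * B) % (2 * B), s / (2 * B) ^ 2 % L, s / ((2 * B) ^ 2 * L) % (D + 1))

/-- number of seeds -/
def nSeeds (B L D : ℕ) : ℕ := (2 * B) ^ 2 * L * (D + 1)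

/-- the test polynomial for a seed number -/
noncomputable def seedPolyS {R : Type*} [CommRing R] [NeZero n] (m : ℕ)
    (g : Fin n → MvPolynomial (Fin n) R) (t : TPar) (N1 : ℕ)
    (ψ : ℕ → MvPolynomial (Fin n) R) (s : ℕ) : MvPolynomial (Fin n) R :=
  seedPoly m g t.K t.e N1 t.T0 t.L ψ (seedOf t.B t.L (m ^ n) s).1
    (seedOf t.B t.L (m ^ n) s).2.1 (seedOf t.B t.L (m ^ n) s).2.2.1
    (seedOf t.B t.L (m ^ n) s).2.2.2

section num
variable [NeZero n]
variable {A : Type*} [CommRing A]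

/-- inner property polynomial: `-(T H) - 1 > 0` means `H < 0` -/
noncomputable def psiIn (φ : Zx n →+* A) (Γ Z : A) (T : ℕ) (f : Zxy n) :
    ℕ → MvPolynomial (Fin n) A :=
  fun _ => -((T : MvPolynomial (Fin n) A) * innerH φ Γ Z f) - 1

/-- `N_s ∈ A` : the norm of the inner seed polynomial (for `A = ℤ[x]` a polynomial in `x`) -/
noncomputable def innerN (φ : Zx n →+* A) (Γ Z : A) (t : TPar) (f : Zxy n) (s : ℕ) : A :=
  mnorm (mI n) (innerG φ Γ Z f) (seedPolyS (mI n) (innerG φ Γ Z f) t 1 (psiIn φ Γ Z t.T0 f) s)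

/-- number of outer property polynomials -/
def nOut (n : ℕ) (t : TPar) : ℕ := 1 + nSeeds t.B t.L (mI n ^ n)

/-- outer property polynomials: `T(R₀²-|x|²) - 1` and `T N_s + 1` -/
noncomputable def psiOut (p : Fin 5 → ℤ) (t t' : TPar) (f : Zxy n) : ℕ → Zx n :=
  fun k => if k = 0 then (t'.T0 : Zx n) * (C (p 0 ^ 2) - ∑ i, X i ^ 2) - 1
    else (t'.T0 : Zx n) * innerN (RingHom.id (Zx n)) (C (p 1)) (C (p 2)) t f (k - 1) + 1

/-- the final integers `W_s` -/
noncomputable def finalW (M : ℕ) (p : Fin 5 → ℤ) (t t' : TPar) (f : Zxy n) (s : ℕ) : ℤ :=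
  mnorm (2 * M - 1) (gO p f) (seedPolyS (2 * M - 1) (gO p f) t' (nOut n t) (psiOut p t t' f) s)

end num

end Crest.Agent.R316
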