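import Crest.Agent.R316.Alg.NormBound

/-!
# R316 / Alg / Gap  (task A6)
Bounds and gaps for values of integer polynomials at real solutions of integer monic systems.
-/

set_option autoImplicit false

namespace Crest.Agent.R316

open MvPolynomial

/-- a root of a monic polynomial with bounded coefficients is bounded -/
theorem abs_root_le_of_coeff_bound {P : Polynomial ℝ} (hP : P.Monic) {B : ℝ} (hB : 0 ≤ B)
    (hc : ∀ j, |P.coeff j| ≤ B) {x : ℝ} (hx : P.eval x = 0) : |x| ≤ 1 + B := by
  have h := Polynomial.IsRoot.norm_lt_cauchyBound hP.ne_zero (show P.IsRoot x from hx)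
  have h2 : P.cauchyBound ≤ ⟨B, hB⟩ + 1 := by
    unfold Polynomial.cauchyBound
    rw [hP.leadingCoeff]
    simp only [nnnorm_one, div_one]
    gcongr
    refine Finset.sup_le fun j _ => ?_
    rw [← NNReal.coe_le_coe]
    exact hc j
  have h3 : (‖x‖₊ : ℝ) ≤ B + 1 := by
    have := h.le.trans h2
    exact_mod_cast this
  rw [add_comm]
  simpa using h3

private theorem root_tail_bound {P : Polynomial ℝ} (hP : P ≠ 0) {x : ℝ} (hx : P.eval x = 0)
    (hx0 : x ≠ 0) (hx1 : |x| ≤ 1) :
    |P.coeff P.natTrailingDegree| ≤ |x| * ∑ j ∈ P.support.erase P.natTrailingDegree,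
      |P.coeff j| := by
  set k := P.natTrailingDegree with hk
  have hkmem : k ∈ P.support := Polynomial.natTrailingDegree_mem_support_of_nonzero hP
  have h1 : P.coeff k * x ^ k = - ∑ j ∈ P.support.erase k, P.coeff j * x ^ j := by
    rw [Polynomial.eval_eq_sum, Polynomial.sum_def, ← Finset.add_sum_erase _ _ hkmem] at hx
    linarith
  have hxk : 0 < |x| ^ k := pow_pos (abs_pos.mpr hx0) k
  have h2 : |P.coeff k| * |x| ^ k ≤ (|x| * ∑ j ∈ P.support.erase k, |P.coeff j|) * |x| ^ k := by
    calc |P.coeff k| * |x| ^ k = |P.coeff k * x ^ k| := by rw [abs_mul, abs_pow]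
      _ = |∑ j ∈ P.support.erase k, P.coeff j * x ^ j| := by rw [h1, abs_neg]
      _ ≤ ∑ j ∈ P.support.erase k, |P.coeff j * x ^ j| := Finset.abs_sum_le_sum_abs _ _
      _ ≤ ∑ j ∈ P.support.erase k, |P.coeff j| * |x| ^ (k + 1) := by
          refine Finset.sum_le_sum fun j hj => ?_
          rw [abs_mul, abs_pow]
          refine mul_le_mul_of_nonneg_left ?_ (abs_nonneg _)
          refine pow_le_pow_of_le_one (abs_nonneg _) hx1 ?_
          have hjs := Finset.mem_of_mem_erase hj
          have hle : k ≤ j := Polynomial.natTrailingDegree_le_of_mem_supp j hjs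
          have hne : j ≠ k := Finset.ne_of_mem_erase hj
          omega
      _ = (|x| * ∑ j ∈ P.support.erase k, |P.coeff j|) * |x| ^ k := by
          rw [← Finset.sum_mul]; ring
  exact le_of_mul_le_mul_right h2 hxk

/-- gap for roots: if every coefficient is zero or at least `δ`, all are at most `B`, then a
non-zero root is at least `δ / (δ + natDegree * B)`-ish; we state it multiplicatively. -/
theorem root_gap {P : Polynomial ℝ} (hP : P ≠ 0) {δ B : ℝ} (hδ : 0 < δ) (hδ1 : δ ≤ 1)
    (hB : 1 ≤ B) (h1 : ∀ j, P.coeff j = 0 ∨ δ ≤ |P.coeff j|) (h2 : ∀ j, |P.coeff j| ≤ B)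
    {x : ℝ} (hx : P.eval x = 0) : x = 0 ∨ δ ≤ |x| * ((P.natDegree + 1) * B) := by
  rcases eq_or_ne x 0 with h0 | h0
  · exact Or.inl h0
  refine Or.inr ?_
  have hN : (1 : ℝ) ≤ (P.natDegree : ℝ) + 1 := by
    have := Nat.cast_nonneg (α := ℝ) P.natDegree
    linarith
  rcases le_or_gt |x| 1 with hx1 | hx1
  · have h3 := root_tail_bound hP hx h0 hx1
    have h4 : δ ≤ |P.coeff P.natTrailingDegree| := by
      refine (h1 _).resolve_left ?_
      rw [Polynomial.coeff_natTrailingDegree_eq_zero]
      exact hP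
    refine h4.trans (h3.trans ?_)
    refine mul_le_mul_of_nonneg_left ?_ (abs_nonneg _)
    calc ∑ j ∈ P.support.erase P.natTrailingDegree, |P.coeff j|
        ≤ ∑ j ∈ P.support.erase P.natTrailingDegree, B := Finset.sum_le_sum fun j _ => h2 j
      _ = ((P.support.erase P.natTrailingDegree).card : ℝ) * B := by
          rw [Finset.sum_const, nsmul_eq_mul]
      _ ≤ ((P.natDegree : ℝ) + 1) * B := by
          refine mul_le_mul_of_nonneg_right ?_ (by linarith)
          have : (P.support.erase P.natTrailingDegree).card ≤ P.natDegree + 1 :=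
            (Finset.card_erase_le).trans (Polynomial.card_supp_le_succ_natDegree P)
          exact_mod_cast this
  · have h5 : (1 : ℝ) ≤ ((P.natDegree : ℝ) + 1) * B := by nlinarith
    nlinarith

variable {n m : ℕ} {g : Fin n → MvPolynomial (Fin n) ℤ}

/-- solutions of a real monic system are bounded -/
theorem msol_bound {g : Fin n → MvPolynomial (Fin n) ℝ} (hg : ∀ i, (g i).totalDegree < m)
    {Γ : ℝ} (hΓ : 1 ≤ Γ)
    (hgΓ : ∀ i, nuP (fun a : ℝ => |a|) 1 (g i) ≤ Γ) {x : Fin n → ℝ} (hx : msol m g x) (i : Fin n) :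
    |x i| ≤ Γ := by
  obtain ⟨j, -, hj⟩ := Finset.exists_max_image Finset.univ (fun k => |x k|)
    ⟨i, Finset.mem_univ i⟩
  refine (hj i (Finset.mem_univ i)).trans ?_
  by_contra hlt
  push Not at hlt
  have hM1 : 1 ≤ |x j| := hΓ.trans hlt.le
  have hm : 0 < m := (Nat.zero_le _).trans_lt (hg j)
  have h1 : |x j| ^ m ≤ Γ * |x j| ^ (m - 1) := by
    calc |x j| ^ m = |x j ^ m| := by rw [abs_pow]
      _ = |eval x (g j)| := by rw [hx j]
      _ ≤ ∑ s ∈ (g j).support, |(g j).coeff s| * |x j| ^ (m - 1) := by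
          rw [eval_eq']
          refine (Finset.abs_sum_le_sum_abs _ _).trans (Finset.sum_le_sum fun s hs => ?_)
          rw [abs_mul]
          refine mul_le_mul_of_nonneg_left ?_ (abs_nonneg _)
          rw [Finset.abs_prod]
          calc ∏ k, |x k ^ s k| ≤ ∏ k, |x j| ^ s k :=
                Finset.prod_le_prod (fun _ _ => abs_nonneg _) (fun k _ => by
                  rw [abs_pow]
                  exact pow_le_pow_left₀ (abs_nonneg _) (hj k (Finset.mem_univ k)) _)
            _ = |x j| ^ (∑ k, s k) := Finset.prod_pow_eq_pow_sum _ _ _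
            _ ≤ |x j| ^ (m - 1) := by
                refine pow_le_pow_right₀ hM1 ?_
                have h3 : (s.sum fun _ e => e) ≤ (g j).totalDegree := le_totalDegree hs
                rw [Finsupp.sum_fintype _ _ (fun _ => rfl)] at h3
                have := hg j
                omega
      _ = nuP (fun a : ℝ => |a|) 1 (g j) * |x j| ^ (m - 1) := by
          rw [← Finset.sum_mul]; simp [nuP]
      _ ≤ Γ * |x j| ^ (m - 1) := by
          gcongr
          exact hgΓ j
  have h2 : Γ * |x j| ^ (m - 1) < |x j| ^ m := by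
    calc Γ * |x j| ^ (m - 1) < |x j| * |x j| ^ (m - 1) := by
          have : 0 < |x j| ^ (m - 1) := pow_pos (by linarith) _
          gcongr
      _ = |x j| ^ m := by rw [← pow_succ', Nat.sub_add_cancel hm]
  linarith

section DetBound

variable {R : Type*} [CommRing R]

private theorem nu_sum_le {ν : R → ℝ} (hν : IsNu ν) {ι : Type*} (s : Finset ι) (f : ι → R) :
    ν (∑ i ∈ s, f i) ≤ ∑ i ∈ s, ν (f i) := by
  classical
  induction s using Finset.induction_on with
  | empty => simp [hν.zero]
  | insert a s ha ih =>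
    rw [Finset.sum_insert ha, Finset.sum_insert ha]
    exact (hν.add_le _ _).trans (add_le_add_right ih _)

private theorem nu_prod_le {ν : R → ℝ} (hν : IsNu ν) {ι : Type*} (s : Finset ι) (f : ι → R) :
    ν (∏ i ∈ s, f i) ≤ ∏ i ∈ s, ν (f i) := by
  classical
  induction s using Finset.induction_on with
  | empty => simpa using hν.one_le
  | insert a s ha ih =>
    rw [Finset.prod_insert ha, Finset.prod_insert ha]
    exact (hν.mul_le _ _).trans (mul_le_mul_of_nonneg_left ih (hν.nonneg _))

private theorem nu_det_le {ν : R → ℝ} (hν : IsNu ν) {ι : Type*} [Fintype ι] [DecidableEq ι]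
    (A : Matrix ι ι R) : ν A.det ≤ ∏ j, ∑ i, ν (A i j) := by
  classical
  rw [Matrix.det_apply]
  refine (nu_sum_le hν _ _).trans ?_
  have h1 : ∀ σ : Equiv.Perm ι, ν (Equiv.Perm.sign σ • ∏ i, A (σ i) i) ≤ ∏ i, ν (A (σ i) i) := by
    intro σ
    rcases Int.units_eq_one_or (Equiv.Perm.sign σ) with h | h
    · rw [h, one_smul]; exact nu_prod_le hν _ _
    · rw [h, Units.neg_smul, one_smul, hν.neg]; exact nu_prod_le hν _ _
  refine (Finset.sum_le_sum fun σ _ => h1 σ).trans ?_
  rw [Finset.prod_univ_sum]
  rw [Fintype.piFinset_univ]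
  have h2 : ∑ σ : Equiv.Perm ι, ∏ i, ν (A (σ i) i)
      = ∑ f ∈ (Finset.univ : Finset (Equiv.Perm ι)).image (fun σ : Equiv.Perm ι => (σ : ι → ι)),
        ∏ i, ν (A (f i) i) := by
    rw [Finset.sum_image]
    intro a _ b _ hab
    exact Equiv.coe_fn_injective hab
  rw [h2]
  exact Finset.sum_le_sum_of_subset_of_nonneg (Finset.subset_univ _)
    (fun f _ _ => Finset.prod_nonneg fun i _ => hν.nonneg _)

/-- the `ℓ¹` norm of an integer polynomial in one variable -/
private noncomputable def nuX (P : Polynomial ℤ) : ℝ := ∑ j ∈ P.support, |(P.coeff j : ℝ)|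

private theorem nuX_eq_of_subset (P : Polynomial ℤ) (s : Finset ℕ) (h : P.support ⊆ s) :
    nuX P = ∑ j ∈ s, |(P.coeff j : ℝ)| := by
  unfold nuX
  refine Finset.sum_subset h fun j _ hj => ?_
  rw [Polynomial.notMem_support_iff.mp hj]; simp

private theorem nuX_add (P Q : Polynomial ℤ) : nuX (P + Q) ≤ nuX P + nuX Q := by
  classical
  rw [nuX_eq_of_subset (P + Q) (P.support ∪ Q.support) Polynomial.support_add,
    nuX_eq_of_subset P (P.support ∪ Q.support) Finset.subset_union_left,
    nuX_eq_of_subset Q (P.support ∪ Q.support) Finset.subset_union_right,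
    ← Finset.sum_add_distrib]
  refine Finset.sum_le_sum fun j _ => ?_
  rw [Polynomial.coeff_add]
  push_cast
  exact abs_add_le _ _

private theorem nuX_sum {ι : Type*} (s : Finset ι) (f : ι → Polynomial ℤ) :
    nuX (∑ i ∈ s, f i) ≤ ∑ i ∈ s, nuX (f i) := by
  classical
  induction s using Finset.induction_on with
  | empty => simp [nuX]
  | insert a s ha ih =>
    rw [Finset.sum_insert ha, Finset.sum_insert ha]
    exact (nuX_add _ _).trans (add_le_add_right ih _)

private theorem nuX_monomial (k : ℕ) (a : ℤ) : nuX (Polynomial.monomial k a) ≤ |(a : ℝ)| := by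
  rw [nuX_eq_of_subset _ {k} (Polynomial.support_monomial_subset k a)]
  simp [Polynomial.coeff_monomial]

private theorem nuX_mul (P Q : Polynomial ℤ) : nuX (P * Q) ≤ nuX P * nuX Q := by
  have h : P * Q = ∑ i ∈ P.support, ∑ j ∈ Q.support,
      Polynomial.monomial (i + j) (P.coeff i * Q.coeff j) := by
    conv_lhs => rw [← Polynomial.sum_monomial_eq P, ← Polynomial.sum_monomial_eq Q]
    rw [Polynomial.sum_def, Polynomial.sum_def, Finset.sum_mul_sum]
    refine Finset.sum_congr rfl fun i _ => Finset.sum_congr rfl fun j _ => ?_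
    rw [Polynomial.monomial_mul_monomial]
  rw [h]
  refine (nuX_sum _ _).trans ?_
  unfold nuX
  rw [Finset.sum_mul_sum]
  refine Finset.sum_le_sum fun i _ => (nuX_sum _ _).trans (Finset.sum_le_sum fun j _ => ?_)
  refine (nuX_monomial _ _).trans ?_
  push_cast
  rw [abs_mul]

private theorem isNu_nuX : IsNu nuX where
  nonneg P := Finset.sum_nonneg fun _ _ => abs_nonneg _
  zero := by simp [nuX]
  one_le := by
    rw [← Polynomial.monomial_zero_one]
    refine (nuX_monomial _ _).trans ?_
    simp
  neg P := by simp [nuX]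
  add_le := nuX_add
  mul_le := nuX_mul

end DetBound

/-- value gap at real solutions of an integer monic system -/
theorem msol_gap (hg : ∀ i, (g i).totalDegree < m) {Γ : ℝ} (hΓ : 1 ≤ Γ)
    (hgΓ : ∀ i, nuP (fun a : ℤ => |(a : ℝ)|) 1 (g i) ≤ Γ) (u : MvPolynomial (Fin n) ℤ) {B : ℝ}
    (hB : 1 ≤ B) (hu : nuP (fun a : ℤ => |(a : ℝ)|) 1 u * Γ ^ (u.totalDegree + n * m) ≤ B)
    {x : Fin n → ℝ} (hx : msol m (fun i => map (Int.castRingHom ℝ) (g i)) x) :
    aeval x u = 0 ∨ 1 ≤ |aeval x u| * (1 + B) ^ (m ^ n) := by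
  set y : ℝ := aeval x u with hy
  -- the characteristic polynomial
  have hchi : (mcp m g u) = (mmat hg u).charpoly := mcp_eq_charpoly hg u
  have hmonic : (mcp m g u).Monic := mcp_monic hg u
  have hnu : nuX (mcp m g u) ≤ (1 + B) ^ (m ^ n) := by
    rw [hchi, Matrix.charpoly]
    refine (nu_det_le isNu_nuX _).trans ?_
    have hcol : ∀ β : Fin n → Fin m, ∑ α, nuX ((mmat hg u).charmatrix α β) ≤ 1 + B := by
      intro β
      have h1 : ∀ α, nuX ((mmat hg u).charmatrix α β) ≤
          (if α = β then 1 else 0) + |((mmat hg u α β : ℤ) : ℝ)| := by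
        intro α
        rw [Matrix.charmatrix_apply, sub_eq_add_neg]
        refine (nuX_add _ _).trans (add_le_add ?_ ?_)
        · rw [Matrix.diagonal_apply]
          split_ifs
          · rw [← Polynomial.monomial_one_one_eq_X]
            refine (nuX_monomial _ _).trans (by simp)
          · simp [nuX]
        · rw [isNu_nuX.neg, ← Polynomial.monomial_zero_left]
          exact nuX_monomial _ _
      refine (Finset.sum_le_sum fun α _ => h1 α).trans ?_
      rw [Finset.sum_add_distrib, Finset.sum_ite_eq' Finset.univ β]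
      simp only [Finset.mem_univ, if_true]
      have h2 := mmat_col_bound isNu_abs_int hg hΓ hgΓ u β
      have := h2.trans hu
      linarith
    calc ∏ β, ∑ α, nuX ((mmat hg u).charmatrix α β)
        ≤ ∏ _β : Fin n → Fin m, (1 + B) :=
          Finset.prod_le_prod (fun β _ => Finset.sum_nonneg fun α _ => isNu_nuX.nonneg _)
            (fun β _ => hcol β)
      _ = (1 + B) ^ (m ^ n) := by
          rw [Finset.prod_const, Finset.card_univ, Fintype.card_fun, Fintype.card_fin,
            Fintype.card_fin]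
  have hroot : ((mcp m g u).map (Int.castRingHom ℝ)).eval y = 0 := by
    rw [← mcp_map (Int.castRingHom ℝ) hg u]
    have h := mcp_eval_of_msol (totalDegree_map_lt (Int.castRingHom ℝ) hg) hx
      (map (Int.castRingHom ℝ) u)
    have h2 : eval x (map (Int.castRingHom ℝ) u) = y := by
      rw [hy, eval_map]
      rfl
    rw [h2] at h
    exact h
  rcases eq_or_ne y 0 with h0 | h0
  · exact Or.inl h0
  refine Or.inr ?_
  have hpow : (1 : ℝ) ≤ (1 + B) ^ (m ^ n) := one_le_pow₀ (by linarith)
  rcases le_or_gt |y| 1 with hy1 | hy1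
  · set P := (mcp m g u).map (Int.castRingHom ℝ) with hP
    have hPm : P.Monic := hmonic.map _
    have h3 := root_tail_bound hPm.ne_zero hroot h0 hy1
    have hsupp : P.support ⊆ (mcp m g u).support := Polynomial.support_map_subset _ _
    have h4 : (1 : ℝ) ≤ |P.coeff P.natTrailingDegree| := by
      have h5 : P.coeff P.natTrailingDegree ≠ 0 := by
        rw [Ne, Polynomial.coeff_natTrailingDegree_eq_zero]
        exact hPm.ne_zero
      rw [hP, Polynomial.coeff_map] at h5 ⊢
      simp only [eq_intCast, ne_eq, Int.cast_eq_zero] at h5 ⊢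
      have h6 := Int.one_le_abs h5
      exact_mod_cast h6
    refine h4.trans (h3.trans ?_)
    refine mul_le_mul_of_nonneg_left ?_ (abs_nonneg _)
    refine le_trans ?_ hnu
    unfold nuX
    calc ∑ j ∈ P.support.erase P.natTrailingDegree, |P.coeff j|
        ≤ ∑ j ∈ (mcp m g u).support, |P.coeff j| :=
          Finset.sum_le_sum_of_subset_of_nonneg
            ((Finset.erase_subset _ _).trans hsupp) (fun _ _ _ => abs_nonneg _)
      _ = ∑ j ∈ (mcp m g u).support, |((mcp m g u).coeff j : ℝ)| := by
          refine Finset.sum_congr rfl fun j _ => ?_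
          rw [hP, Polynomial.coeff_map]
          simp
  · nlinarith

end Crest.Agent.R316
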