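import Crest.Agent.R316.Alg.Basis

/-!
# R316 / Alg / NewtonExp  (task A4)
Determinants from power traces, in exact integer form:
`det(1 - tM) = exp(-∑ tr(M^k) t^k / k)`.
-/

set_option autoImplicit false

namespace Crest.Agent.R316

open MvPolynomial

/-- `L * ∑_{k=1}^D p_k t^k / k` with `L = D!`. -/
noncomputable def powerSumPoly (D : ℕ) (p : ℕ → ℤ) : Polynomial ℤ :=
  ∑ k ∈ Finset.Icc 1 D, Polynomial.C ((∏ i ∈ (Finset.Icc 1 D).erase k, (i : ℤ)) * p k) *
    Polynomial.X ^ k

theorem prodIcc_eq_factorial_aux (n : ℕ) : ∏ i ∈ Finset.Icc 1 n, i = n.factorial := by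
  induction n with
  | zero => simp
  | succ n ih => rw [Finset.prod_Icc_succ_top (by omega), ih, Nat.factorial_succ, mul_comm]

section NewtonAux

variable {ι : Type*} [Fintype ι] [DecidableEq ι]

/-- derivative of a determinant of a matrix of polynomials -/
theorem derivative_det_aux {R : Type*} [CommRing R] (A : Matrix ι ι (Polynomial R)) :
    Polynomial.derivative A.det =
      (A.adjugate * A.map Polynomial.derivative).trace := by
  have h1 : Polynomial.derivative A.det =
      ∑ i, (A.updateCol i (fun k => Polynomial.derivative (A k i))).det := by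
    rw [Matrix.det_apply]
    simp only [Matrix.det_apply]
    rw [Finset.sum_comm, Polynomial.derivative_sum]
    refine Finset.sum_congr rfl fun σ _ => ?_
    rw [← Finset.smul_sum, Units.smul_def, Units.smul_def, Polynomial.derivative_smul]
    congr 1
    rw [Polynomial.derivative_prod_finset]
    refine Finset.sum_congr rfl fun i _ => ?_
    rw [← Finset.mul_prod_erase Finset.univ _ (Finset.mem_univ i), mul_comm]
    congr 1
    · simp [Matrix.updateCol_apply]
    · refine Finset.prod_congr rfl fun j hj => ?_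
      rw [Matrix.updateCol_ne (Finset.ne_of_mem_erase hj)]
  rw [h1, Matrix.trace]
  refine Finset.sum_congr rfl fun i _ => ?_
  rw [← Matrix.cramer_apply, Matrix.cramer_eq_adjugate_mulVec]
  rfl

/-- Newton identities in generating form, modulo `X ^ K` -/
theorem derivative_charpolyRev_aux {R : Type*} [CommRing R] (M : Matrix ι ι R) (K : ℕ) :
    ∃ Q : Polynomial R, Polynomial.derivative M.charpolyRev =
      -(∑ k ∈ Finset.range K, Polynomial.C ((M ^ (k + 1)).trace) * Polynomial.X ^ k) *
        M.charpolyRev + Polynomial.X ^ K * Q := by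
  set A : Matrix ι ι (Polynomial R) := 1 - (Polynomial.X : Polynomial R) • M.map Polynomial.C
    with hA
  have hdet : M.charpolyRev = A.det := rfl
  set N : Matrix ι ι (Polynomial R) := M.map Polynomial.C with hN
  have hAd : A.map Polynomial.derivative = -N := by
    ext i j : 1
    rcases eq_or_ne i j with h | h
    · subst h
      simp [hA, hN, Matrix.map_apply]
    · simp [hA, hN, Matrix.map_apply, h]
  have hadj : A.adjugate = A.det • (1 : Matrix ι ι (Polynomial R)) +
      (Polynomial.X : Polynomial R) • (A.adjugate * N) := by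
    have := Matrix.adjugate_mul A
    rw [hA, Matrix.mul_sub, Matrix.mul_one, Matrix.mul_smul] at this
    rw [← hA] at this
    rw [← this]
    abel
  have hpow : ∀ K : ℕ, A.adjugate =
      ∑ k ∈ Finset.range K, (A.det * Polynomial.X ^ k) • N ^ k +
        ((Polynomial.X : Polynomial R) ^ K) • (A.adjugate * N ^ K) := by
    intro K
    induction K with
    | zero => simp
    | succ K ih =>
      rw [Finset.sum_range_succ]
      conv_lhs => rw [ih]
      rw [add_assoc]
      congr 1
      conv_lhs => rw [hadj]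
      rw [Matrix.add_mul, smul_add, Matrix.smul_mul, Matrix.one_mul, smul_smul,
        mul_comm (Polynomial.X ^ K) A.det, Matrix.smul_mul, smul_smul, ← pow_succ,
        Matrix.mul_assoc, ← pow_succ']
  have hNpow : ∀ k : ℕ, (N ^ k).trace = Polynomial.C ((M ^ k).trace) := by
    intro k
    have : N ^ k = (M ^ k).map Polynomial.C := by
      rw [hN]
      exact (map_pow (Polynomial.C.mapMatrix) M k).symm
    rw [this]
    simp only [Matrix.trace, Matrix.diag_apply, Matrix.map_apply, map_sum]
  refine ⟨-(A.adjugate * N ^ K * N).trace, ?_⟩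
  rw [hdet, derivative_det_aux, hAd]
  conv_lhs => rw [hpow K]
  rw [Matrix.mul_neg, Matrix.trace_neg, Matrix.add_mul, Matrix.trace_add, Finset.sum_mul,
    Matrix.trace_sum, Matrix.smul_mul, Matrix.trace_smul, neg_add, smul_eq_mul]
  rw [neg_mul, Finset.sum_mul, mul_neg]
  congr 2
  refine Finset.sum_congr rfl fun k _ => ?_
  rw [Matrix.smul_mul, Matrix.trace_smul, ← pow_succ, hNpow, smul_eq_mul]
  ring

/-- uniqueness for the ODE `h' = -P h` modulo `X ^ D` -/
theorem ode_unique_aux {F : Type*} [Field F] [CharZero F] (D : ℕ) (h P Q : Polynomial F)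
    (h0 : h.coeff 0 = 0)
    (hd : Polynomial.derivative h = -P * h + Polynomial.X ^ D * Q) :
    ∀ k ≤ D, h.coeff k = 0 := by
  have key : ∀ k ≤ D + 1, Polynomial.X ^ k ∣ h := by
    intro k
    induction k with
    | zero => intro _; simp
    | succ k ih =>
      intro hk
      have h1 := ih (by omega)
      have h2 : Polynomial.X ^ k ∣ Polynomial.derivative h := by
        rw [hd]
        refine dvd_add (Dvd.dvd.mul_left h1 _) ?_
        exact Dvd.dvd.mul_right (pow_dvd_pow _ (by omega)) _
      rw [Polynomial.X_pow_dvd_iff] at h2 ⊢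
      intro d hdk
      rcases Nat.eq_zero_or_pos d with rfl | hpos
      · exact h0
      · obtain ⟨e, rfl⟩ : ∃ e, d = e + 1 := ⟨d - 1, by omega⟩
        have h3 := h2 e (by omega)
        rw [Polynomial.coeff_derivative] at h3
        have h4 : ((e : F) + 1) ≠ 0 := by exact_mod_cast Nat.succ_ne_zero e
        exact (mul_eq_zero.mp h3).resolve_right h4
  intro k hk
  have := key (D + 1) le_rfl
  rw [Polynomial.X_pow_dvd_iff] at this
  exact this k (by omega)

/-- truncated exponential of `-S` -/
noncomputable def expTrunc {F : Type*} [Field F] (D : ℕ) (S : Polynomial F) : Polynomial F :=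
  ∑ j ∈ Finset.range (D + 1), Polynomial.C ((-1) ^ j * ((j.factorial : F))⁻¹) * S ^ j

theorem derivative_expTrunc {F : Type*} [Field F] [CharZero F] (D : ℕ) (S : Polynomial F) :
    Polynomial.derivative (expTrunc D S) =
      -(Polynomial.derivative S) * expTrunc D S +
        Polynomial.derivative S * (Polynomial.C ((-1) ^ D * ((D.factorial : F))⁻¹) * S ^ D) := by
  unfold expTrunc
  rw [Polynomial.derivative_sum, Finset.sum_range_succ']
  rw [Finset.sum_range_succ (fun j => Polynomial.C ((-1) ^ j * ((j.factorial : F))⁻¹) * S ^ j)]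
  simp only [pow_zero, Nat.factorial_zero, Nat.cast_one, inv_one, mul_one, map_one,
    Polynomial.derivative_one, add_zero]
  rw [mul_add, neg_mul, Finset.mul_sum, neg_mul (Polynomial.derivative S), add_assoc,
    neg_add_cancel, add_zero, ← Finset.sum_neg_distrib]
  refine Finset.sum_congr rfl fun j _ => ?_
  rw [Polynomial.derivative_C_mul, Polynomial.derivative_pow]
  have h1 : (((j + 1 : ℕ) : F)) ≠ 0 := by exact_mod_cast Nat.succ_ne_zero j
  have h2 : ((j.factorial : ℕ) : F) ≠ 0 := by exact_mod_cast Nat.factorial_ne_zero j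
  have h3 : ((-1) ^ (j + 1) * (((j + 1).factorial : ℕ) : F)⁻¹) * ((j + 1 : ℕ) : F) =
      -((-1) ^ j * ((j.factorial : ℕ) : F)⁻¹) := by
    rw [Nat.factorial_succ, Nat.cast_mul, pow_succ]
    field_simp
  have h4 : (Polynomial.C ((-1) ^ (j + 1) * (((j + 1).factorial : ℕ) : F)⁻¹) : Polynomial F) *
      (Polynomial.C (((j + 1 : ℕ) : F))) = -Polynomial.C ((-1) ^ j * ((j.factorial : ℕ) : F)⁻¹) := by
    rw [← Polynomial.C_mul, h3, Polynomial.C_neg]
  simp only [Nat.add_sub_cancel]
  calc _ = (Polynomial.C ((-1) ^ (j + 1) * (((j + 1).factorial : ℕ) : F)⁻¹) : Polynomial F) *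
      (Polynomial.C (((j + 1 : ℕ) : F))) * S ^ j * Polynomial.derivative S := by
        ring
    _ = _ := by rw [h4]; ring

theorem coeff_charpolyRev_eq_exp {F : Type*} [Field F] [CharZero F] (M : Matrix ι ι F) (D : ℕ) :
    ∀ k ≤ D, M.charpolyRev.coeff k =
      (expTrunc D (∑ k ∈ Finset.Icc 1 D, Polynomial.C ((M ^ k).trace / (k : F)) *
        Polynomial.X ^ k)).coeff k := by
  set S : Polynomial F := ∑ k ∈ Finset.Icc 1 D, Polynomial.C ((M ^ k).trace / (k : F)) *
        Polynomial.X ^ k with hS
  have hS' : Polynomial.derivative S =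
      ∑ k ∈ Finset.range D, Polynomial.C ((M ^ (k + 1)).trace) * Polynomial.X ^ k := by
    rw [hS, Polynomial.derivative_sum]
    rw [Finset.sum_bij' (fun k _ => k - 1) (fun k _ => k + 1)]
    · intro k hk
      rw [Finset.mem_Icc] at hk
      rw [Finset.mem_range]
      omega
    · intro k hk
      rw [Finset.mem_range] at hk
      rw [Finset.mem_Icc]
      omega
    · intro k hk
      rw [Finset.mem_Icc] at hk
      omega
    · intro k hk
      simp
    · intro k hk
      rw [Finset.mem_Icc] at hk
      have hk0 : (k : F) ≠ 0 := by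
        have : k ≠ 0 := by omega
        exact_mod_cast this
      rw [Polynomial.derivative_C_mul_X_pow]
      rw [div_mul_cancel₀ _ hk0, Nat.sub_add_cancel hk.1]
  have hXS : Polynomial.X ∣ S := by
    rw [hS]
    refine Finset.dvd_sum fun k hk => ?_
    rw [Finset.mem_Icc] at hk
    exact Dvd.dvd.mul_left (dvd_pow_self _ (by omega)) _
  obtain ⟨S1, hS1⟩ := hXS
  obtain ⟨Q, hQ⟩ := derivative_charpolyRev_aux M D
  intro k hk
  rw [← sub_eq_zero, ← Polynomial.coeff_sub]
  refine ode_unique_aux D (M.charpolyRev - expTrunc D S)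
    (Polynomial.derivative S)
    (Q - Polynomial.derivative S *
      (Polynomial.C ((-1) ^ D * ((D.factorial : F))⁻¹) * S1 ^ D)) ?_ ?_ k hk
  · rw [Polynomial.coeff_sub]
    have h1 : M.charpolyRev.coeff 0 = 1 := by
      rw [Polynomial.coeff_zero_eq_eval_zero]
      exact Matrix.eval_charpolyRev
    have h2 : (expTrunc D S).coeff 0 = 1 := by
      rw [Polynomial.coeff_zero_eq_eval_zero]
      unfold expTrunc
      rw [Polynomial.eval_finsetSum, Finset.sum_range_succ']
      have : S.eval 0 = 0 := by rw [hS1]; simp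
      simp [this]
    rw [h1, h2, sub_self]
  · rw [Polynomial.derivative_sub, hQ, derivative_expTrunc, ← hS']
    rw [hS1]
    ring

theorem coeff_charpolyRev_card {R : Type*} [CommRing R] [Nontrivial R] (M : Matrix ι ι R) :
    M.charpolyRev.coeff (Fintype.card ι) = (-1) ^ Fintype.card ι * M.det := by
  rw [← Matrix.reverse_charpoly, Polynomial.coeff_reverse, Matrix.charpoly_natDegree_eq_dim,
    Polynomial.revAt_le le_rfl, Nat.sub_self, Matrix.det_eq_sign_charpoly_coeff, ← mul_assoc,
    ← mul_pow]
  simp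

end NewtonAux

theorem det_from_traces {ι : Type*} [Fintype ι] [DecidableEq ι] (M : Matrix ι ι ℤ) (D : ℕ)
    (hD : Fintype.card ι = D) :
    M.det * ((D.factorial : ℤ) ^ D * D.factorial) =
      (-1) ^ D * ∑ j ∈ Finset.range (D + 1), (-1) ^ j * (D.factorial : ℤ) ^ (D - j) *
        (∏ i ∈ Finset.Icc (j + 1) D, (i : ℤ)) *
        (powerSumPoly D (fun k => (M ^ k).trace) ^ j).coeff D := by
  have hinj : Function.Injective (Int.castRingHom ℚ) := Int.cast_injective
  apply hinj
  have hL : ((D.factorial : ℕ) : ℚ) ≠ 0 := by exact_mod_cast Nat.factorial_ne_zero D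
  set MQ' : Matrix ι ι ℚ := M.map (Int.castRingHom ℚ) with hMQ
  have htr : ∀ k : ℕ, ((((M ^ k).trace : ℤ)) : ℚ) = (MQ' ^ k).trace := by
    intro k
    have : MQ' ^ k = (M ^ k).map (Int.castRingHom ℚ) := by
      rw [hMQ]
      exact (map_pow ((Int.castRingHom ℚ).mapMatrix) M k).symm
    rw [this]
    simp [Matrix.trace, Matrix.diag_apply, Matrix.map_apply]
  set S : Polynomial ℚ := ∑ k ∈ Finset.Icc 1 D, Polynomial.C ((MQ' ^ k).trace / (k : ℚ)) *
        Polynomial.X ^ k with hS
  have hprod : ∀ k ∈ Finset.Icc 1 D,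
      (((∏ i ∈ (Finset.Icc 1 D).erase k, (i : ℤ)) : ℤ) : ℚ) = (D.factorial : ℚ) / k := by
    intro k hk
    have hk0 : (k : ℚ) ≠ 0 := by
      rw [Finset.mem_Icc] at hk
      have : k ≠ 0 := by omega
      exact_mod_cast this
    rw [eq_div_iff hk0]
    have h1 := Finset.prod_erase_mul (Finset.Icc 1 D) (fun i : ℕ => (i : ℚ)) hk
    push_cast
    rw [h1]
    rw [← prodIcc_eq_factorial_aux]
    push_cast
    rfl
  have hpsp : (powerSumPoly D (fun k => (M ^ k).trace)).map (Int.castRingHom ℚ) =
      Polynomial.C ((D.factorial : ℕ) : ℚ) * S := by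
    unfold powerSumPoly
    rw [Polynomial.map_sum, hS, Finset.mul_sum]
    refine Finset.sum_congr rfl fun k hk => ?_
    rw [Polynomial.map_mul, Polynomial.map_C, Polynomial.map_pow, Polynomial.map_X, ← mul_assoc,
      ← Polynomial.C_mul]
    congr 2
    rw [map_mul]
    have h2 := hprod k hk
    rw [eq_intCast, eq_intCast, h2, htr]
    ring
  have hcoef : ∀ j : ℕ, ((((powerSumPoly D (fun k => (M ^ k).trace)) ^ j).coeff D : ℤ) : ℚ) =
      ((D.factorial : ℕ) : ℚ) ^ j * (S ^ j).coeff D := by
    intro j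
    have h1 := Polynomial.coeff_map (Int.castRingHom ℚ)
      (p := (powerSumPoly D (fun k => (M ^ k).trace)) ^ j) D
    rw [Polynomial.map_pow, hpsp, mul_pow, ← Polynomial.C_pow, Polynomial.coeff_C_mul] at h1
    rw [h1, eq_intCast]
  have hdet : ((M.det : ℤ) : ℚ) = (-1) ^ D * (expTrunc D S).coeff D := by
    have h1 : ((M.det : ℤ) : ℚ) = MQ'.det := by
      rw [hMQ]
      exact RingHom.map_det (Int.castRingHom ℚ) M
    have h2 := coeff_charpolyRev_card MQ'
    rw [hD, coeff_charpolyRev_eq_exp MQ' D D le_rfl, ← hS] at h2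
    rw [h1, h2, ← mul_assoc, ← mul_pow]
    simp
  have hfac : ∀ j ∈ Finset.range (D + 1),
      (((∏ i ∈ Finset.Icc (j + 1) D, (i : ℤ)) : ℤ) : ℚ) = (D.factorial : ℚ) / (j.factorial : ℚ) := by
    intro j hj
    have hj0 : ((j.factorial : ℕ) : ℚ) ≠ 0 := by exact_mod_cast Nat.factorial_ne_zero j
    rw [eq_div_iff hj0, ← prodIcc_eq_factorial_aux, ← prodIcc_eq_factorial_aux]
    push_cast
    have hjD : j ≤ D := by
      rw [Finset.mem_range] at hj
      omega
    rw [mul_comm]
    have : Finset.Icc 1 D = Finset.Icc 1 j ∪ Finset.Icc (j + 1) D := by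
      ext x
      simp only [Finset.mem_Icc, Finset.mem_union]
      omega
    rw [this, Finset.prod_union]
    rw [Finset.disjoint_left]
    intro x hx hx'
    rw [Finset.mem_Icc] at hx hx'
    omega
  have hdet2 : (M.map fun x : ℤ => (x : ℚ)).det = (-1) ^ D * (expTrunc D S).coeff D := by
    rw [← hdet]
    push_cast
    rfl
  simp only [eq_intCast]
  push_cast
  rw [hdet2]
  have hexp : (expTrunc D S).coeff D =
      ∑ j ∈ Finset.range (D + 1), ((-1) ^ j * ((j.factorial : ℚ))⁻¹) * (S ^ j).coeff D := by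
    unfold expTrunc
    rw [Polynomial.finset_sum_coeff]
    refine Finset.sum_congr rfl fun j _ => ?_
    rw [Polynomial.coeff_C_mul]
  rw [hexp, mul_assoc, Finset.sum_mul]
  congr 1
  refine Finset.sum_congr rfl fun j hj => ?_
  rw [hcoef j]
  have h1 := hfac j hj
  push_cast at h1
  rw [h1]
  have hjD : j ≤ D := by
    rw [Finset.mem_range] at hj
    omega
  have h2 : ((D.factorial : ℕ) : ℚ) ^ D =
      ((D.factorial : ℕ) : ℚ) ^ (D - j) * ((D.factorial : ℕ) : ℚ) ^ j := by
    rw [← pow_add, Nat.sub_add_cancel hjD]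
  rw [h2]
  ring

/-- the norm of a monic integer system from the traces of powers -/
theorem mnorm_from_traces {n m : ℕ} {g : Fin n → MvPolynomial (Fin n) ℤ}
    (hg : ∀ i, (g i).totalDegree < m) (G : MvPolynomial (Fin n) ℤ) (D : ℕ) (hD : m ^ n = D) :
    mnorm m g G * ((D.factorial : ℤ) ^ D * D.factorial) =
      (-1) ^ D * ∑ j ∈ Finset.range (D + 1), (-1) ^ j * (D.factorial : ℤ) ^ (D - j) *
        (∏ i ∈ Finset.Icc (j + 1) D, (i : ℤ)) *
        (powerSumPoly D (fun k => mtrace m g (G ^ k)) ^ j).coeff D := by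
  have hcard : Fintype.card (Fin n → Fin m) = D := by
    rw [← hD]
    simp
  have hpow : ∀ k : ℕ, mmat hg (G ^ k) = mmat hg G ^ k := by
    intro k
    unfold mmat
    rw [map_pow, map_pow]
  have htr : (fun k => mtrace m g (G ^ k)) = fun k => (mmat hg G ^ k).trace := by
    funext k
    rw [mtrace_eq hg, hpow]
  rw [mnorm_eq_det hg, htr]
  exact det_from_traces (mmat hg G) D hcard

end Crest.Agent.R316
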