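import Crest.Agent.R316.Alg.Basis

/-!
# R316 / Alg / RealNorm  (task A5)
The sign of a real norm is the parity of the number of real solutions where the polynomial is
negative (complex solutions come in conjugate pairs).
-/

set_option autoImplicit false

namespace Crest.Agent.R316

open MvPolynomial

/-- If multiplication by `a` on a finite-dimensional module over a commutative `ℝ`-algebra has
negative determinant then some real character in the support is negative at `a`. -/
theorem exists_char_neg_of_det_neg {A : Type} [CommRing A] [Algebra ℝ A] (a : A) :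
    ∀ (d : ℕ) (M : Type) [AddCommGroup M] [Module ℝ M] [Module A M] [IsScalarTower ℝ A M]
      [Module.Finite ℝ M], Module.finrank ℝ M = d →
      LinearMap.det (Algebra.lsmul ℝ ℝ M a) < 0 →
      ∃ φ : A →ₐ[ℝ] ℝ, φ a < 0 ∧ ∀ b : A, (∀ x : M, b • x = 0) → φ b = 0 := by
  intro d
  induction d using Nat.strong_induction_on with
  | _ d ih =>
  intro M _ _ _ _ _ hd hdet
  have hArt : IsArtinian A M := isArtinian_of_tower ℝ inferInstance
  have hnt : Nontrivial M := by
    by_contra h
    rw [not_nontrivial_iff_subsingleton] at h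
    rw [LinearMap.det_eq_one_of_subsingleton] at hdet
    linarith
  obtain ⟨N, hN, -⟩ := (eq_bot_or_exists_atom_le (⊤ : Submodule A M)).resolve_left top_ne_bot
  have hsimple : IsSimpleModule A N := isSimpleModule_iff_isAtom.mpr hN
  let W : Submodule ℝ M := N.restrictScalars ℝ
  have hW : W ≤ W.comap (Algebra.lsmul ℝ ℝ M a) := fun x hx => N.smul_mem a hx
  have key := LinearMap.det_eq_det_mul_det W (Algebra.lsmul ℝ ℝ M a) hW
  rw [key] at hdet
  have hNfin : Module.Finite ℝ N := inferInstanceAs (Module.Finite ℝ W)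
  by_cases hneg : LinearMap.det ((Algebra.lsmul ℝ ℝ M a).restrict hW) < 0
  · obtain ⟨I, hI, ⟨e⟩⟩ := isSimpleModule_iff_quot_maximal.mp hsimple
    let _ : Field (A ⧸ I) := Ideal.Quotient.field I
    let e' : W ≃ₗ[ℝ] (A ⧸ I) := e.restrictScalars ℝ
    have hfin : Module.Finite ℝ (A ⧸ I) := Module.Finite.equiv e'
    have h1 : LinearMap.det ((Algebra.lsmul ℝ ℝ M a).restrict hW)
        = Algebra.norm ℝ (Ideal.Quotient.mk I a) := by
      rw [Algebra.norm_apply, ← LinearMap.det_conj ((Algebra.lsmul ℝ ℝ M a).restrict hW) e']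
      congr 1
      ext x
      obtain ⟨y, rfl⟩ := e'.surjective x
      have h0 : e' (e'.symm (e' y)) = e' y := e'.apply_symm_apply _
      have h1 : e'.symm (e' y) = y := e'.symm_apply_apply _
      have h2 : e (a • (show N from y)) = a • e y := e.map_smul a y
      show e' ((((Algebra.lsmul ℝ ℝ M a).restrict hW : W →ₗ[ℝ] W)) (e'.symm (e' y))) = _
      rw [h1]
      exact h2
    rw [h1] at hneg
    have : Algebra.IsAlgebraic ℝ (A ⧸ I) := Algebra.IsAlgebraic.of_finite ℝ (A ⧸ I)
    rcases Real.nonempty_algEquiv_or (A ⧸ I) with ⟨⟨f⟩⟩ | ⟨⟨f⟩⟩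
    · refine ⟨(f : (A ⧸ I) →ₐ[ℝ] ℝ).comp (Ideal.Quotient.mkₐ ℝ I), ?_, ?_⟩
      · have : Algebra.norm ℝ (Ideal.Quotient.mk I a) = f (Ideal.Quotient.mk I a) := by
          rw [← Algebra.norm_eq_of_algEquiv f, Algebra.norm_self]; rfl
        rw [this] at hneg
        exact hneg
      · intro b hb
        have : Ideal.Quotient.mk I b = 0 := by
          have h2 : e (b • e.symm 1) = b • (1 : A ⧸ I) := by rw [e.map_smul, e.apply_symm_apply]
          have h3 : b • e.symm 1 = 0 := by
            apply Subtype.ext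
            exact hb _
          rw [h3, map_zero] at h2
          rw [← mul_one (Ideal.Quotient.mk I b)]
          exact h2.symm
        show f (Ideal.Quotient.mk I b) = 0
        rw [this, map_zero]
    · exfalso
      have : Algebra.norm ℝ (Ideal.Quotient.mk I a) = Algebra.norm ℝ (f (Ideal.Quotient.mk I a)) :=
        (Algebra.norm_eq_of_algEquiv f _).symm
      rw [this, Algebra.norm_complex_apply] at hneg
      exact absurd hneg (not_lt.mpr (Complex.normSq_nonneg _))
  · have hneg2 : LinearMap.det (W.mapQ W (Algebra.lsmul ℝ ℝ M a) hW) < 0 := by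
      by_contra h
      push Not at h hneg
      have := mul_nonneg hneg h
      linarith
    have hlt : Module.finrank ℝ (M ⧸ N) < d := by
      have h1 : Module.finrank ℝ (M ⧸ W) + Module.finrank ℝ W = Module.finrank ℝ M :=
        Submodule.finrank_quotient_add_finrank W
      have h2 : 0 < Module.finrank ℝ W := by
        have : Nontrivial N := (Submodule.nontrivial_iff_ne_bot).mpr hN.1
        rw [Module.finrank_pos_iff]
        exact inferInstanceAs (Nontrivial N)
      have h3 : Module.finrank ℝ (M ⧸ N) = Module.finrank ℝ (M ⧸ W) := rfl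
      omega
    have hfin : Module.Finite ℝ (M ⧸ N) := inferInstanceAs (Module.Finite ℝ (M ⧸ W))
    obtain ⟨φ, h1, h2⟩ := ih _ hlt (M ⧸ N) rfl hneg2
    refine ⟨φ, h1, fun b hb => h2 b fun x => ?_⟩
    obtain ⟨y, rfl⟩ := N.mkQ_surjective x
    rw [← map_smul, hb, map_zero]


/-- first order Taylor expansion modulo the square of the ideal of a point -/
theorem taylor_mem_sq {n : ℕ} (x : Fin n → ℝ) (f : MvPolynomial (Fin n) ℝ) :
    f - C (eval x f) - ∑ j, C (eval x (pderiv j f)) * (X j - C (x j)) ∈
      (RingHom.ker (eval x)) ^ 2 := by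
  induction f using MvPolynomial.induction_on with
  | C a => simp
  | add p q hp hq =>
    have : p + q - C (eval x (p + q)) - ∑ j, C (eval x (pderiv j (p + q))) * (X j - C (x j)) =
        (p - C (eval x p) - ∑ j, C (eval x (pderiv j p)) * (X j - C (x j))) +
        (q - C (eval x q) - ∑ j, C (eval x (pderiv j q)) * (X j - C (x j))) := by
      simp only [map_add, add_mul, Finset.sum_add_distrib]
      ring
    rw [this]
    exact Ideal.add_mem _ hp hq
  | mul_X p i hp =>
    have : p * X i - C (eval x (p * X i)) -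
          ∑ j, C (eval x (pderiv j (p * X i))) * (X j - C (x j)) =
        (X i) * 0 + C (x i) * (p - C (eval x p) - ∑ j, C (eval x (pderiv j p)) * (X j - C (x j))) +
        (p - C (eval x p)) * (X i - C (x i)) := by
      have h1 : ∀ j, C (eval x (pderiv j (p * X i))) * (X j - C (x j)) =
          C (x i) * (C (eval x (pderiv j p)) * (X j - C (x j))) +
          (if j = i then C (eval x p) * (X j - C (x j)) else 0) := by
        intro j
        rw [pderiv_mul]
        by_cases hji : j = i
        · subst hji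
          simp
          ring
        · rw [pderiv_X_of_ne (Ne.symm hji)]
          simp [hji]
          ring
      simp only [h1, Finset.sum_add_distrib, ← Finset.mul_sum]
      rw [Finset.sum_ite_eq' Finset.univ i (fun j => C (eval x p) * (X j - C (x j)))]
      simp
      ring
    rw [this, mul_zero, zero_add]
    refine Ideal.add_mem _ (Ideal.mul_mem_left _ _ hp) ?_
    rw [pow_two]
    apply Ideal.mul_mem_mul <;> simp [RingHom.mem_ker]

variable {n m : ℕ} {g : Fin n → MvPolynomial (Fin n) ℝ}

/-- real solutions from real characters -/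
theorem msol_of_char (φ : MQ m g →ₐ[ℝ] ℝ) :
    msol m g (fun i => φ (Ideal.Quotient.mk (mideal m g) (X i))) ∧
      ∀ G, eval (fun i => φ (Ideal.Quotient.mk (mideal m g) (X i))) G =
        φ (Ideal.Quotient.mk (mideal m g) G) := by
  have h : ∀ G, eval (fun i => φ (Ideal.Quotient.mk (mideal m g) (X i))) G =
        φ (Ideal.Quotient.mk (mideal m g) G) := by
    intro G
    have : (aeval (fun i => φ (Ideal.Quotient.mk (mideal m g) (X i))) : _ →ₐ[ℝ] ℝ) =
        φ.comp (Ideal.Quotient.mkₐ ℝ (mideal m g)) := by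
      apply MvPolynomial.algHom_ext
      intro i
      simp
    have h2 := congrArg (fun f => f G) this
    simpa [MvPolynomial.coe_aeval_eq_eval] using h2
  refine ⟨fun i => ?_, h⟩
  have h1 : (Ideal.Quotient.mk (mideal m g) (X i ^ m - g i)) = 0 := by
    rw [Ideal.Quotient.eq_zero_iff_mem]
    exact Ideal.subset_span ⟨i, rfl⟩
  have h2 := h (X i ^ m - g i)
  rw [h1, map_zero] at h2
  simpa [sub_eq_zero] using h2

/-- evaluation at a real solution as a character -/
noncomputable def charOfMsol {x : Fin n → ℝ} (hx : msol m g x) : MQ m g →ₐ[ℝ] ℝ :=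
  Ideal.Quotient.liftₐ (mideal m g) (aeval x) (by
    intro a ha
    have : mideal m g ≤ RingHom.ker (aeval x : MvPolynomial (Fin n) ℝ →ₐ[ℝ] ℝ) := by
      rw [mideal, Ideal.span_le]
      rintro _ ⟨i, rfl⟩
      simp only [SetLike.mem_coe, RingHom.mem_ker, map_sub, map_pow, aeval_X]
      rw [hx i]
      simp [MvPolynomial.coe_aeval_eq_eval]
    exact this ha)

theorem charOfMsol_apply {x : Fin n → ℝ} (hx : msol m g x) (G : MvPolynomial (Fin n) ℝ) :
    charOfMsol hx (Ideal.Quotient.mk (mideal m g) G) = eval x G := by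
  simp [charOfMsol, MvPolynomial.coe_aeval_eq_eval]

theorem mnorm_eq_det_lsmul (G : MvPolynomial (Fin n) ℝ) :
    mnorm m g G = LinearMap.det (Algebra.lsmul ℝ ℝ (MQ m g) (Ideal.Quotient.mk (mideal m g) G)) := by
  rw [mnorm, Algebra.norm_apply]
  rfl

/-- Soundness: a negative norm gives a real solution where `G` is negative. -/
theorem exists_neg_of_mnorm_neg (hg : ∀ i, (g i).totalDegree < m) (G : MvPolynomial (Fin n) ℝ)
    (h : mnorm m g G < 0) : ∃ x, msol m g x ∧ eval x G < 0 := by
  have := mQ_finite hg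
  rw [mnorm_eq_det_lsmul] at h
  obtain ⟨φ, h1, -⟩ := exists_char_neg_of_det_neg _ _ (MQ m g) rfl h
  obtain ⟨h2, h3⟩ := msol_of_char φ
  exact ⟨_, h2, by rw [h3]; exact h1⟩

/-- at a simple solution the maximal ideal is idempotent -/
theorem ker_le_sq {x : Fin n → ℝ} (hx : msol m g x) (hj : eval x (mjac m g) ≠ 0) :
    RingHom.ker (charOfMsol hx) ≤ (RingHom.ker (charOfMsol hx)) ^ 2 := by
  classical
  have hmap : ∀ f ∈ (RingHom.ker (eval x)) ^ 2,
      Ideal.Quotient.mk (mideal m g) f ∈ (RingHom.ker (charOfMsol hx)) ^ 2 := by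
    intro f hf
    have h1 : Ideal.map (Ideal.Quotient.mk (mideal m g)) ((RingHom.ker (eval x)) ^ 2) ≤
        (RingHom.ker (charOfMsol hx)) ^ 2 := by
      rw [Ideal.map_pow]
      apply Ideal.pow_right_mono
      rw [Ideal.map_le_iff_le_comap]
      intro p hp
      rw [Ideal.mem_comap, RingHom.mem_ker, charOfMsol_apply]
      exact hp
    exact h1 (Ideal.mem_map_of_mem _ hf)
  -- linear forms
  have hlin : ∀ f : MvPolynomial (Fin n) ℝ, eval x f = 0 →
      Ideal.Quotient.mk (mideal m g) f -
        ∑ j, Ideal.Quotient.mk (mideal m g) (C (eval x (pderiv j f))) *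
          Ideal.Quotient.mk (mideal m g) (X j - C (x j)) ∈ (RingHom.ker (charOfMsol hx)) ^ 2 := by
    intro f hf
    have h1 := hmap _ (taylor_mem_sq x f)
    rw [hf, map_zero, sub_zero] at h1
    simpa [map_sub, map_sum, map_mul] using h1
  have hrow : ∀ i, ∑ j, Ideal.Quotient.mk (mideal m g) (C (eval x (pderiv j (X i ^ m - g i)))) *
          Ideal.Quotient.mk (mideal m g) (X j - C (x j)) ∈ (RingHom.ker (charOfMsol hx)) ^ 2 := by
    intro i
    have h1 := hlin (X i ^ m - g i) (by simp [hx i])
    have h2 : Ideal.Quotient.mk (mideal m g) (X i ^ m - g i) = 0 := by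
      rw [Ideal.Quotient.eq_zero_iff_mem]
      exact Ideal.subset_span ⟨i, rfl⟩
    rw [h2, zero_sub] at h1
    simpa using (Ideal.neg_mem_iff _).mp h1
  let J : Matrix (Fin n) (Fin n) ℝ := Matrix.of fun i j => eval x (pderiv j (X i ^ m - g i))
  have hdet : J.det ≠ 0 := by
    have : eval x (mjac m g) = J.det := by
      rw [mjac, RingHom.map_det]
      rfl
    rwa [← this]
  have hinv : J⁻¹ * J = 1 := Matrix.nonsing_inv_mul J (isUnit_iff_ne_zero.mpr hdet)
  have hξ : ∀ k, Ideal.Quotient.mk (mideal m g) (X k - C (x k)) ∈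
      (RingHom.ker (charOfMsol hx)) ^ 2 := by
    intro k
    have h1 : Ideal.Quotient.mk (mideal m g) (X k - C (x k)) =
        ∑ i, Ideal.Quotient.mk (mideal m g) (C (J⁻¹ k i)) *
          ∑ j, Ideal.Quotient.mk (mideal m g) (C (eval x (pderiv j (X i ^ m - g i)))) *
          Ideal.Quotient.mk (mideal m g) (X j - C (x j)) := by
      simp only [Finset.mul_sum]
      rw [Finset.sum_comm]
      have h2 : ∀ j, ∑ i, Ideal.Quotient.mk (mideal m g) (C (J⁻¹ k i)) *
          (Ideal.Quotient.mk (mideal m g) (C (eval x (pderiv j (X i ^ m - g i)))) *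
          Ideal.Quotient.mk (mideal m g) (X j - C (x j))) =
          Ideal.Quotient.mk (mideal m g) (C ((J⁻¹ * J) k j)) *
            Ideal.Quotient.mk (mideal m g) (X j - C (x j)) := by
        intro j
        rw [Matrix.mul_apply, map_sum, map_sum, Finset.sum_mul]
        refine Finset.sum_congr rfl fun i _ => ?_
        rw [map_mul, map_mul, mul_assoc]
        rfl
      rw [Finset.sum_congr rfl fun j _ => h2 j, hinv]
      rw [Finset.sum_eq_single k]
      · simp
      · intro j _ hjk
        rw [Matrix.one_apply_ne (Ne.symm hjk)]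
        simp
      · simp
    rw [h1]
    exact Ideal.sum_mem _ fun i _ => Ideal.mul_mem_left _ _ (hrow i)
  intro b hb
  obtain ⟨f, rfl⟩ := Ideal.Quotient.mk_surjective b
  have hf : eval x f = 0 := by
    rw [RingHom.mem_ker, charOfMsol_apply] at hb
    exact hb
  have h1 := hlin f hf
  have h2 := Ideal.add_mem _ h1 (Ideal.sum_mem _ fun j (_ : j ∈ Finset.univ) =>
    Ideal.mul_mem_left _ (Ideal.Quotient.mk (mideal m g) (C (eval x (pderiv j f)))) (hξ j))
  rwa [sub_add_cancel] at h2

/-- Completeness: if exactly one real solution has `G < 0`, it is simple (non-zero Jacobian) and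
the norm does not vanish, then the norm is negative. -/
theorem mnorm_neg_of_unique (hg : ∀ i, (g i).totalDegree < m) (G : MvPolynomial (Fin n) ℝ)
    (h0 : mnorm m g G ≠ 0) (x : Fin n → ℝ) (hx : msol m g x) (hneg : eval x G < 0)
    (huniq : ∀ y, msol m g y → eval y G < 0 → y = x) (hj : eval x (mjac m g) ≠ 0) :
    mnorm m g G < 0 := by
  have hfin := mQ_finite hg
  have hnoeth : IsNoetherianRing (MQ m g) := inferInstance
  set a : MQ m g := Ideal.Quotient.mk (mideal m g) G with ha
  let I : Ideal (MQ m g) := RingHom.ker (charOfMsol hx)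
  have hII : IsIdempotentElem I := by
    apply le_antisymm
    · exact Ideal.mul_le_right
    · have := ker_le_sq hx hj
      rwa [pow_two] at this
  obtain ⟨e, he, hIe⟩ := (Ideal.isIdempotentElem_iff_of_fg I (IsNoetherian.noetherian I)).mp hII
  let W : Submodule ℝ (MQ m g) := I.restrictScalars ℝ
  have hW : W ≤ W.comap (Algebra.lsmul ℝ ℝ (MQ m g) a) := fun y hy => I.mul_mem_left a hy
  have key := LinearMap.det_eq_det_mul_det W (Algebra.lsmul ℝ ℝ (MQ m g) a) hW
  have hquot : LinearMap.det (W.mapQ W (Algebra.lsmul ℝ ℝ (MQ m g) a) hW) = eval x G := by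
    let f : MQ m g →ₗ[ℝ] ℝ := (charOfMsol hx).toLinearMap
    have hf : Function.Surjective f := fun r => ⟨algebraMap ℝ _ r, by simp [f]⟩
    have hker : LinearMap.ker f = W := rfl
    let E : (MQ m g ⧸ W) ≃ₗ[ℝ] ℝ := f.quotKerEquivOfSurjective hf
    rw [← LinearMap.det_conj _ E]
    have : (E : _ →ₗ[ℝ] ℝ) ∘ₗ (W.mapQ W (Algebra.lsmul ℝ ℝ (MQ m g) a) hW) ∘ₗ
        (E.symm : ℝ →ₗ[ℝ] _) = (eval x G) • LinearMap.id := by
      ext
      have h1 : E.symm 1 = Submodule.Quotient.mk (1 : MQ m g) := by
        rw [LinearEquiv.symm_apply_eq]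
        show (1 : ℝ) = f 1
        simp [f]
      simp only [LinearMap.comp_apply, LinearEquiv.coe_coe, h1]
      show f (a * 1) = _
      simp [f, ha, charOfMsol_apply]
    rw [this, LinearMap.det_smul]
    simp
  rw [mnorm_eq_det_lsmul] at h0 ⊢
  by_contra hcon
  have hpos : 0 < LinearMap.det (Algebra.lsmul ℝ ℝ (MQ m g) a) :=
    lt_of_le_of_ne (not_lt.mp hcon) (Ne.symm h0)
  rw [key, hquot] at hpos
  have hneg2 : LinearMap.det ((Algebra.lsmul ℝ ℝ (MQ m g) a).restrict hW) < 0 := by
    by_contra h
    have := mul_nonpos_of_nonneg_of_nonpos (not_lt.mp h) hneg.le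
    linarith
  have hIfin : Module.Finite ℝ I := inferInstanceAs (Module.Finite ℝ W)
  let F : I →ₗ[ℝ] I := (show W →ₗ[ℝ] W from (Algebra.lsmul ℝ ℝ (MQ m g) a).restrict hW)
  have hF : Algebra.lsmul ℝ ℝ I a = F := LinearMap.ext fun _ => rfl
  have hneg3 : LinearMap.det F < 0 := hneg2
  rw [← hF] at hneg3
  obtain ⟨φ, h1, h2⟩ := exists_char_neg_of_det_neg a _ I rfl hneg3
  have h3 : φ (1 - e) = 0 := by
    apply h2
    rintro ⟨y, hy⟩
    apply Subtype.ext
    show (1 - e) * y = 0
    rw [hIe] at hy
    obtain ⟨z, rfl⟩ := Ideal.mem_span_singleton'.mp hy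
    have : e * e = e := he
    calc (1 - e) * (z * e) = z * (e - e * e) := by ring
      _ = 0 := by rw [this]; ring
  obtain ⟨h4, h5⟩ := msol_of_char φ
  have h6 := huniq _ h4 (by rw [h5]; exact h1)
  obtain ⟨f, hf⟩ := Ideal.Quotient.mk_surjective e
  have h7 : eval x f = 0 := by
    rw [← charOfMsol_apply hx f, hf]
    have : e ∈ I := by rw [hIe]; exact Submodule.mem_span_singleton_self e
    exact this
  have h8 : φ e = eval x f := by
    rw [← hf, ← h5 f, h6]
  rw [map_sub, map_one, h8, h7] at h3
  norm_num at h3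

end Crest.Agent.R316
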