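import Crest.Agent.R316.Alg.Defs

/-!
# R316 / Alg / Residue
Degree filtration `DegLT` and the residue functional `mtau` of a monic system.
-/

set_option autoImplicit false

namespace Crest.Agent.R316

open MvPolynomial

section DegLT
variable {R : Type*} [CommRing R] {σ : Type*}

/-- all monomials have degree `< k` (for `k = 0`: the polynomial is zero) -/
def DegLT (k : ℕ) (p : MvPolynomial σ R) : Prop := ∀ s : σ →₀ ℕ, k ≤ s.degree → coeff s p = 0

theorem DegLT.mono {k l : ℕ} {p : MvPolynomial σ R} (h : DegLT k p) (hkl : k ≤ l) : DegLT l p :=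
  fun s hs => h s (hkl.trans hs)

theorem degLT_zero (k : ℕ) : DegLT k (0 : MvPolynomial σ R) := fun s _ => by simp

theorem DegLT.add {k : ℕ} {p q : MvPolynomial σ R} (hp : DegLT k p) (hq : DegLT k q) :
    DegLT k (p + q) := fun s hs => by rw [coeff_add, hp s hs, hq s hs, add_zero]

theorem DegLT.neg {k : ℕ} {p : MvPolynomial σ R} (hp : DegLT k p) : DegLT k (-p) :=
  fun s hs => by rw [coeff_neg, hp s hs, neg_zero]

theorem DegLT.sub {k : ℕ} {p q : MvPolynomial σ R} (hp : DegLT k p) (hq : DegLT k q) :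
    DegLT k (p - q) := fun s hs => by rw [coeff_sub, hp s hs, hq s hs, sub_zero]

theorem DegLT.sum {ι : Type*} {k : ℕ} (t : Finset ι) {p : ι → MvPolynomial σ R}
    (hp : ∀ i ∈ t, DegLT k (p i)) : DegLT k (∑ i ∈ t, p i) :=
  fun s hs => by rw [coeff_sum]; exact Finset.sum_eq_zero fun i hi => hp i hi s hs

theorem DegLT.mul {k l : ℕ} {p q : MvPolynomial σ R} (hp : DegLT k p) (hq : DegLT (l + 1) q) :
    DegLT (k + l) (p * q) := by
  classical
  intro s hs
  rw [coeff_mul]
  refine Finset.sum_eq_zero fun x hx => ?_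
  have hx' : x.1 + x.2 = s := by simpa using hx
  have hd : x.1.degree + x.2.degree = s.degree := by rw [← map_add, hx']
  rcases le_or_gt k x.1.degree with h | h
  · rw [hp _ h, zero_mul]
  · rw [hq _ (by omega), mul_zero]

theorem DegLT.mul' {k l : ℕ} {p q : MvPolynomial σ R} (hp : DegLT (k + 1) p) (hq : DegLT l q) :
    DegLT (k + l) (p * q) := by
  rw [mul_comm, add_comm]; exact hq.mul hp

theorem DegLT.C_mul {k : ℕ} {p : MvPolynomial σ R} (hp : DegLT k p) (a : R) :
    DegLT k (C a * p) := fun s hs => by rw [coeff_C_mul, hp s hs, mul_zero]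

theorem degLT_C (a : R) : DegLT 1 (C a : MvPolynomial σ R) := by
  classical
  intro s hs
  rw [coeff_C, if_neg]
  rintro rfl
  simp at hs

theorem degLT_one : DegLT 1 (1 : MvPolynomial σ R) := degLT_C 1

theorem degLT_X (i : σ) : DegLT 2 (X i : MvPolynomial σ R) := by
  classical
  intro s hs
  rw [coeff_X, if_neg]
  rintro rfl
  simp at hs

theorem degLT_monomial (s : σ →₀ ℕ) (a : R) : DegLT (s.degree + 1) (monomial s a) := by
  classical
  intro t ht
  rw [coeff_monomial, if_neg]
  rintro rfl
  omega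

theorem DegLT.pow {k : ℕ} {p : MvPolynomial σ R} (hp : DegLT (k + 1) p) (a : ℕ) :
    DegLT (k * a + 1) (p ^ a) := by
  induction a with
  | zero => simpa using degLT_one
  | succ a ih =>
    rw [pow_succ]
    have := ih.mul hp
    refine this.mono ?_
    rw [Nat.mul_succ]; omega

theorem DegLT.prod {ι : Type*} (t : Finset ι) {k : ι → ℕ} {p : ι → MvPolynomial σ R}
    (hp : ∀ i ∈ t, DegLT (k i + 1) (p i)) : DegLT ((∑ i ∈ t, k i) + 1) (∏ i ∈ t, p i) := by
  classical
  induction t using Finset.induction_on with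
  | empty => simpa using degLT_one
  | insert i t hi ih =>
    rw [Finset.prod_insert hi, Finset.sum_insert hi]
    have := (hp i (Finset.mem_insert_self _ _)).mul
      (ih fun j hj => hp j (Finset.mem_insert_of_mem hj))
    refine this.mono ?_
    omega

theorem degLT_of_totalDegree_lt {k : ℕ} {p : MvPolynomial σ R} (h : p.totalDegree < k) :
    DegLT k p := fun s hs => coeff_eq_zero_of_totalDegree_lt (by
      have : s.degree = ∑ i ∈ s.support, s i := rfl
      omega)

theorem DegLT.map {S : Type*} [CommRing S] (φ : R →+* S) {k : ℕ} {p : MvPolynomial σ R}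
    (hp : DegLT k p) : DegLT k (MvPolynomial.map φ p) := fun s hs => by
  rw [coeff_map, hp s hs, map_zero]

theorem DegLT.totalDegree_lt {k : ℕ} {p : MvPolynomial σ R} (h : DegLT k p) (hk : 0 < k) :
    p.totalDegree < k := by
  rw [totalDegree, Finset.sup_lt_iff hk]
  intro s hs
  by_contra hc
  exact (mem_support_iff.mp hs) (h s (by
    have : s.degree = s.sum fun _ e => e := rfl
    omega))

end DegLT

variable {R : Type*} [CommRing R] {n m : ℕ} {g : Fin n → MvPolynomial (Fin n) R}

/-- the exponent `m - 1 + m κ` -/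
noncomputable def texp (m : ℕ) (κ : Fin n → ℕ) : Fin n →₀ ℕ :=
  Finsupp.equivFunOnFinite.symm fun i => (m - 1) + m * κ i

@[simp] theorem texp_apply (m : ℕ) (κ : Fin n → ℕ) (i : Fin n) :
    texp m κ i = (m - 1) + m * κ i := rfl

theorem texp_degree (m : ℕ) (κ : Fin n → ℕ) :
    (texp m κ).degree = n * (m - 1) + m * ∑ i, κ i := by
  rw [Finsupp.degree_eq_sum]
  simp [Finset.sum_add_distrib, Finset.mul_sum]

/-- one term of the residue functional -/
noncomputable def tterm (m : ℕ) (g : Fin n → MvPolynomial (Fin n) R) (κ : Fin n → ℕ)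
    (h : MvPolynomial (Fin n) R) : R :=
  coeff (texp m κ) (h * ∏ i, g i ^ κ i)

theorem degLT_gpow (hg : ∀ i, (g i).totalDegree < m) (κ : Fin n → ℕ) :
    DegLT ((m - 1) * (∑ i, κ i) + 1) (∏ i, g i ^ κ i) := by
  rw [Finset.mul_sum]
  refine DegLT.prod _ fun i _ => ?_
  have h : DegLT ((m - 1) + 1) (g i) := degLT_of_totalDegree_lt (by have := hg i; omega)
  exact h.pow _

theorem tterm_eq_zero (hg : ∀ i, (g i).totalDegree < m) {κ : Fin n → ℕ} {d : ℕ}
    {h : MvPolynomial (Fin n) R} (hd : DegLT d h) (hκ : d ≤ n * (m - 1) + ∑ i, κ i) :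
    tterm m g κ h = 0 := by
  refine (hd.mul (degLT_gpow hg κ)) _ ?_
  rw [texp_degree]
  rcases Nat.eq_zero_or_pos n with rfl | hn
  · simp at hκ ⊢; omega
  · have hm : 0 < m := by have := hg ⟨0, hn⟩; omega
    obtain ⟨m', rfl⟩ : ∃ m', m = m' + 1 := ⟨m - 1, by omega⟩
    simp only [Nat.add_sub_cancel] at hκ ⊢
    have : (m' + 1) * ∑ i, κ i = m' * ∑ i, κ i + ∑ i, κ i := by ring
    omega

/-- the finite set of relevant `κ` -/
theorem tterm_support (hg : ∀ i, (g i).totalDegree < m) {d : ℕ}
    {h : MvPolynomial (Fin n) R} (hd : DegLT d h) :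
    (Function.support fun κ => tterm m g κ h) ⊆
      ((Fintype.piFinset fun _ : Fin n => Finset.range d : Finset (Fin n → ℕ)) :
        Set (Fin n → ℕ)) := by
  intro κ hκ
  rw [Finset.mem_coe, Fintype.mem_piFinset]
  intro i
  rw [Finset.mem_range]
  by_contra hc
  apply hκ
  refine tterm_eq_zero hg hd ?_
  have : κ i ≤ ∑ i, κ i := Finset.single_le_sum (f := κ) (fun _ _ => Nat.zero_le _)
    (Finset.mem_univ i)
  omega

theorem exists_degLT (h : MvPolynomial (Fin n) R) : ∃ d, DegLT d h :=
  ⟨h.totalDegree + 1, degLT_of_totalDegree_lt (Nat.lt_succ_self _)⟩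

theorem tterm_finite (hg : ∀ i, (g i).totalDegree < m) (h : MvPolynomial (Fin n) R) :
    (Function.support fun κ => tterm m g κ h).Finite := by
  obtain ⟨d, hd⟩ := exists_degLT h
  exact (Finset.finite_toSet _).subset (tterm_support hg hd)

/-- the residue functional -/
noncomputable def mtau (m : ℕ) (g : Fin n → MvPolynomial (Fin n) R)
    (h : MvPolynomial (Fin n) R) : R := ∑ᶠ κ : Fin n → ℕ, tterm m g κ h

theorem mtau_eq_sum (hg : ∀ i, (g i).totalDegree < m) {d : ℕ} {h : MvPolynomial (Fin n) R}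
    (hd : DegLT d h) :
    mtau m g h = ∑ κ ∈ Fintype.piFinset fun _ : Fin n => Finset.range d, tterm m g κ h :=
  finsum_eq_sum_of_support_subset _ (tterm_support hg hd)

theorem mtau_add (hg : ∀ i, (g i).totalDegree < m) (h k : MvPolynomial (Fin n) R) :
    mtau m g (h + k) = mtau m g h + mtau m g k := by
  unfold mtau
  rw [← finsum_add_distrib (tterm_finite hg h) (tterm_finite hg k)]
  refine finsum_congr fun κ => ?_
  rw [tterm, tterm, tterm, add_mul, coeff_add]

theorem mtau_C_mul (hg : ∀ i, (g i).totalDegree < m) (a : R) (h : MvPolynomial (Fin n) R) :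
    mtau m g (C a * h) = a * mtau m g h := by
  unfold mtau
  rw [mul_finsum' _ _ (tterm_finite hg h)]
  refine finsum_congr fun κ => ?_
  rw [tterm, tterm, mul_assoc, coeff_C_mul]

theorem mtau_zero : mtau m g 0 = 0 := by
  unfold mtau
  simp [tterm]

/-- the residue functional as a linear map -/
noncomputable def mtauL (hg : ∀ i, (g i).totalDegree < m) : MvPolynomial (Fin n) R →ₗ[R] R where
  toFun := mtau m g
  map_add' := mtau_add hg
  map_smul' a h := by
    rw [smul_eq_C_mul, mtau_C_mul hg, RingHom.id_apply, smul_eq_mul]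

@[simp] theorem mtauL_apply (hg : ∀ i, (g i).totalDegree < m) (h : MvPolynomial (Fin n) R) :
    mtauL hg h = mtau m g h := rfl

theorem mtau_of_degLT (hg : ∀ i, (g i).totalDegree < m) {h : MvPolynomial (Fin n) R}
    (hd : DegLT (n * (m - 1)) h) : mtau m g h = 0 := by
  unfold mtau
  rw [← finsum_zero (α := Fin n → ℕ)]
  exact finsum_congr fun κ => tterm_eq_zero hg hd (Nat.le_add_right _ _)

theorem mtau_of_degLT_succ (hg : ∀ i, (g i).totalDegree < m) {h : MvPolynomial (Fin n) R}
    (hd : DegLT (n * (m - 1) + 1) h) : mtau m g h = coeff (texp m 0) h := by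
  unfold mtau
  rw [finsum_eq_single _ (0 : Fin n → ℕ)]
  · simp [tterm]
  · intro κ hκ
    refine tterm_eq_zero hg hd ?_
    have : 0 < ∑ i, κ i := by
      obtain ⟨i, hi⟩ := Function.ne_iff.mp hκ
      have h1 : κ i ≤ ∑ i, κ i := Finset.single_le_sum (f := κ) (fun _ _ => Nat.zero_le _)
        (Finset.mem_univ i)
      have h2 : 0 < κ i := Nat.pos_of_ne_zero hi
      omega
    omega

/-- the residue functional kills `(X_i^m - g_i) * h` -/
theorem mtau_rel_mul (hg : ∀ i, (g i).totalDegree < m) (i : Fin n)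
    (h : MvPolynomial (Fin n) R) : mtau m g ((X i ^ m - g i) * h) = 0 := by
  classical
  have hm : 0 < m := by have := hg i; omega
  rw [sub_mul, sub_eq_add_neg, mtau_add hg]
  have hneg : mtau m g (-(g i * h)) = - mtau m g (g i * h) := by
    have := mtau_C_mul hg (-1) (g i * h)
    simpa using this
  rw [hneg, ← sub_eq_add_neg, sub_eq_zero]
  -- the shift
  unfold mtau
  have key : ∀ κ : Fin n → ℕ, tterm m g κ (g i * h) =
      tterm m g (κ + Pi.single i 1) (X i ^ m * h) := by
    intro κ
    unfold tterm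
    have h1 : texp m (κ + Pi.single i 1) = texp m κ + Finsupp.single i m := by
      ext j
      by_cases hj : j = i
      · subst hj
        simp [Nat.mul_add, Nat.add_assoc]
      · simp [hj]
    have h2 : ∏ j, g j ^ ((κ + Pi.single i 1 : Fin n → ℕ) j) = g i * ∏ j, g j ^ κ j := by
      have : ∀ j, g j ^ ((κ + Pi.single i 1 : Fin n → ℕ) j) =
          g j ^ κ j * (if j = i then g i else 1) := by
        intro j
        by_cases hj : j = i
        · subst hj; simp [pow_succ]
        · simp [hj]
      rw [Finset.prod_congr rfl fun j _ => this j, Finset.prod_mul_distrib]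
      simp [mul_comm]
    rw [h1, h2]
    have h3 : X i ^ m * h * (g i * ∏ j, g j ^ κ j) =
        monomial (Finsupp.single i m) 1 * (g i * h * ∏ j, g j ^ κ j) := by
      rw [← X_pow_eq_monomial]; ring
    rw [h3, add_comm (texp m κ), coeff_monomial_mul, one_mul]
  have hinj : Function.Injective fun κ : Fin n → ℕ => κ + (Pi.single i 1 : Fin n → ℕ) :=
    add_left_injective _
  rw [finsum_congr key]
  rw [← finsum_mem_range (f := fun κ => tterm m g κ (X i ^ m * h)) hinj]
  rw [finsum_mem_def]
  refine finsum_congr fun κ => ?_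
  by_cases hκ : κ ∈ Set.range fun κ : Fin n → ℕ => κ + (Pi.single i 1 : Fin n → ℕ)
  · rw [Set.indicator_of_mem hκ]
  · rw [Set.indicator_of_notMem hκ]
    have hz : κ i = 0 := by
      by_contra hne
      apply hκ
      refine ⟨κ - Pi.single i 1, ?_⟩
      ext j
      by_cases hj : j = i
      · subst hj; simp; omega
      · simp [hj]
    unfold tterm
    have h3 : X i ^ m * h * (∏ j, g j ^ κ j) =
        monomial (Finsupp.single i m) 1 * (h * ∏ j, g j ^ κ j) := by
      rw [← X_pow_eq_monomial]; ring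
    rw [h3, coeff_monomial_mul', if_neg]
    intro hle
    have := hle i
    simp [hz] at this
    omega

theorem mtau_of_mem (hg : ∀ i, (g i).totalDegree < m) {h : MvPolynomial (Fin n) R}
    (hh : h ∈ mideal m g) : mtau m g h = 0 := by
  suffices H : ∀ q, mtau m g (q * h) = 0 by simpa using H 1
  unfold mideal Ideal.span at hh
  refine Submodule.span_induction (p := fun x _ => ∀ q, mtau m g (q * x) = 0) ?_ ?_ ?_ ?_ hh
  · rintro x ⟨i, rfl⟩ q
    rw [mul_comm]
    exact mtau_rel_mul hg i q
  · intro q; rw [mul_zero]; exact mtau_zero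
  · intro x y _ _ hx hy q
    rw [mul_add, mtau_add hg, hx, hy, add_zero]
  · intro a x _ hx q
    rw [smul_eq_mul, ← mul_assoc]
    exact hx _

/-- base change -/
theorem mtau_map {S : Type*} [CommRing S] (φ : R →+* S) (hg : ∀ i, (g i).totalDegree < m)
    (h : MvPolynomial (Fin n) R) :
    mtau m (fun i => map φ (g i)) (map φ h) = φ (mtau m g h) := by
  obtain ⟨d, hd⟩ := exists_degLT h
  have hg' : ∀ i, (map φ (g i)).totalDegree < m :=
    fun i => lt_of_le_of_lt (Finset.sup_mono (support_map_subset φ (g i))) (hg i)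
  rw [mtau_eq_sum hg' (hd.map φ), mtau_eq_sum hg hd, map_sum]
  refine Finset.sum_congr rfl fun κ _ => ?_
  unfold tterm
  rw [← coeff_map]
  simp

end Crest.Agent.R316
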