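import Crest.Agent.R316.Alg.Basis

/-!
# R316 / Alg / TraceFormula  (task A2)
Proof idea (n variables, ideal I = (X_i^m - g_i)):
* `τ(h) = ∑_κ coeff_{m-1+mκ} (h * g^κ)` (finite by degree) is R-linear and kills `I` (telescoping).
* `Δ_ij(x,y)` : divided differences, `F_i(x) - F_i(y) = ∑_j Δ_ij (x_j - y_j)`; by Cramer
  `det Δ * (x_j - y_j) = 0` in `A ⊗ A`, hence `(c⊗1) det Δ = (1⊗c) det Δ`.
* degree count: `(τ ⊗ id)(det Δ) = 1`.
* hence `c = ∑_ν τ(c a_ν) b_ν` for `det Δ = ∑ a_ν ⊗ b_ν`, so `Tr(h) = ∑_ν τ(h a_ν b_ν) = τ(h J)`.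
-/

set_option autoImplicit false

namespace Crest.Agent.R316

open MvPolynomial

section Bezout

variable {A : Type*} [CommRing A] {n : ℕ}

/-- the divided difference property of an exponent -/
def DD (y : Fin n → A) (s : Fin n →₀ ℕ) : Prop :=
  ∃ G : Fin n → MvPolynomial (Fin n) A, (∀ j, DegLT s.degree (G j)) ∧
    monomial s 1 - C (eval y (monomial s 1)) = ∑ j, G j * (X j - C (y j))

theorem dd_zero (y : Fin n → A) : DD y 0 :=
  ⟨0, fun j => degLT_zero _, by simp⟩

theorem dd_add (y : Fin n → A) {s t : Fin n →₀ ℕ} (hs : DD y s) (ht : DD y t) : DD y (s + t) := by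
  obtain ⟨G, hG, hGe⟩ := hs
  obtain ⟨H, hH, hHe⟩ := ht
  refine ⟨fun j => monomial s 1 * H j + C (eval y (monomial t 1)) * G j, fun j => ?_, ?_⟩
  · rw [map_add]
    refine DegLT.add ?_ ?_
    · exact (degLT_monomial s 1).mul' (hH j)
    · exact ((hG j).C_mul _).mono (Nat.le_add_right _ _)
  · have h1 : (monomial (s + t) 1 : MvPolynomial (Fin n) A) = monomial s 1 * monomial t 1 := by
      rw [monomial_mul, mul_one]
    have h2 : ∑ j, (monomial s 1 * H j + C (eval y (monomial t 1)) * G j) * (X j - C (y j)) =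
        monomial s 1 * ∑ j, H j * (X j - C (y j)) +
          C (eval y (monomial t 1)) * ∑ j, G j * (X j - C (y j)) := by
      rw [Finset.mul_sum, Finset.mul_sum, ← Finset.sum_add_distrib]
      refine Finset.sum_congr rfl fun j _ => ?_
      ring
    rw [h2, ← hGe, ← hHe, h1, map_mul, map_mul]
    ring

theorem dd_single_one (y : Fin n → A) (i : Fin n) : DD y (Finsupp.single i 1) := by
  classical
  refine ⟨fun j => if j = i then 1 else 0, fun j => ?_, ?_⟩
  · rw [Finsupp.degree_single]
    by_cases h : j = i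
    · simpa [h] using degLT_one
    · simpa [h] using degLT_zero _
  · rw [← X]
    simp

theorem dd_all (y : Fin n → A) (s : Fin n →₀ ℕ) : DD y s := by
  induction s using Finsupp.induction_linear with
  | zero => exact dd_zero y
  | add s t hs ht => exact dd_add y hs ht
  | single i a =>
    induction a with
    | zero => rw [Finsupp.single_zero]; exact dd_zero y
    | succ a ih => rw [Finsupp.single_add]; exact dd_add y ih (dd_single_one y i)

theorem exists_divdiff (y : Fin n → A) {k : ℕ} {p : MvPolynomial (Fin n) A}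
    (hp : DegLT (k + 1) p) :
    ∃ G : Fin n → MvPolynomial (Fin n) A, (∀ j, DegLT k (G j)) ∧
      p - C (eval y p) = ∑ j, G j * (X j - C (y j)) := by
  choose H hH hHe using dd_all y
  refine ⟨fun j => ∑ s ∈ p.support, C (coeff s p) * H s j, fun j => ?_, ?_⟩
  · refine DegLT.sum _ fun s hs => ((hH s j).C_mul _).mono ?_
    by_contra hc
    exact (mem_support_iff.mp hs) (hp s (by omega))
  · have h1 : ∀ s : Fin n →₀ ℕ, (monomial s (coeff s p) : MvPolynomial (Fin n) A) =
        C (coeff s p) * monomial s 1 := by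
      intro s; rw [C_mul_monomial, mul_one]
    have h2 : p - C (eval y p) = ∑ s ∈ p.support, C (coeff s p) *
        (monomial s 1 - C (eval y (monomial s 1))) := by
      conv_lhs => rw [p.as_sum]
      rw [map_sum, map_sum, ← Finset.sum_sub_distrib]
      refine Finset.sum_congr rfl fun s _ => ?_
      rw [h1, map_mul, map_mul, eval_C]
      ring
    rw [h2]
    simp_rw [hHe, Finset.mul_sum, Finset.sum_mul]
    rw [Finset.sum_comm]
    refine Finset.sum_congr rfl fun j _ => Finset.sum_congr rfl fun s _ => ?_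
    ring

theorem degLT_prod_add_sub {ι : Type*} (t : Finset ι) {k : ℕ} {a e : ι → MvPolynomial (Fin n) A}
    (ha : ∀ i ∈ t, DegLT (k + 1) (a i)) (he : ∀ i ∈ t, DegLT k (e i)) :
    DegLT (t.card * k) (∏ i ∈ t, (a i + e i) - ∏ i ∈ t, a i) := by
  classical
  induction t using Finset.induction_on with
  | empty => simpa using degLT_zero _
  | insert i t hi ih =>
    have ih' := ih (fun j hj => ha j (Finset.mem_insert_of_mem hj))
      (fun j hj => he j (Finset.mem_insert_of_mem hj))
    have hai := ha i (Finset.mem_insert_self _ _)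
    have hei := he i (Finset.mem_insert_self _ _)
    have hP : DegLT ((∑ _i ∈ t, k) + 1) (∏ i ∈ t, a i) :=
      DegLT.prod t fun j hj => ha j (Finset.mem_insert_of_mem hj)
    rw [Finset.sum_const, smul_eq_mul] at hP
    rw [Finset.prod_insert hi, Finset.prod_insert hi, Finset.card_insert_of_notMem hi]
    have h1 : (a i + e i) * ∏ i ∈ t, (a i + e i) - a i * ∏ i ∈ t, a i =
        (a i + e i) * (∏ i ∈ t, (a i + e i) - ∏ i ∈ t, a i) + e i * ∏ i ∈ t, a i := by ring
    rw [h1]
    refine DegLT.add ?_ ?_
    · have := (hai.add (hei.mono (Nat.le_succ k))).mul' ih'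
      refine this.mono ?_
      rw [Nat.succ_mul]; omega
    · have := hei.mul hP
      refine this.mono ?_
      rw [Nat.succ_mul]; omega

theorem DegLT.units_smul {k : ℕ} {p : MvPolynomial (Fin n) A} (hp : DegLT k p) (u : ℤˣ) :
    DegLT k (u • p) := by
  rcases Int.units_eq_one_or u with rfl | rfl
  · simpa using hp
  · simpa using hp.neg

theorem degLT_det_sub {k : ℕ} (a : Fin n → MvPolynomial (Fin n) A)
    (E : Matrix (Fin n) (Fin n) (MvPolynomial (Fin n) A))
    (ha : ∀ i, DegLT (k + 1) (a i)) (hE : ∀ i j, DegLT k (E i j)) :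
    DegLT (n * k) ((Matrix.diagonal a + E).det - ∏ i, a i) := by
  classical
  rw [← Matrix.det_diagonal, Matrix.det_apply, Matrix.det_apply, ← Finset.sum_sub_distrib]
  refine DegLT.sum _ fun σ _ => ?_
  rw [← smul_sub]
  refine DegLT.units_smul ?_ _
  have := degLT_prod_add_sub (Finset.univ : Finset (Fin n)) (k := k)
    (a := fun i => Matrix.diagonal a (σ i) i) (e := fun i => E (σ i) i)
    (fun i _ => by
      rw [Matrix.diagonal_apply]
      split_ifs
      · exact ha _
      · exact degLT_zero _) (fun i _ => hE _ _)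
  rw [Finset.card_univ, Fintype.card_fin] at this
  exact this

end Bezout

variable {R : Type*} [CommRing R] {n m : ℕ} {g : Fin n → MvPolynomial (Fin n) R}

/-! ### The Bezoutian over a ring containing a solution -/

section Sol

variable {A : Type*} [CommRing A] {gA : Fin n → MvPolynomial (Fin n) A}

/-- existence of the Bezoutian matrix -/
theorem exists_bezout (hg : ∀ i, (gA i).totalDegree < m) {y : Fin n → A} (hy : msol m gA y) :
    ∃ D E : Matrix (Fin n) (Fin n) (MvPolynomial (Fin n) A),
      D = Matrix.diagonal (fun i => X i ^ (m - 1)) + E ∧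
      (∀ i j, DegLT (m - 1) (E i j)) ∧
      ∀ i, X i ^ m - gA i = ∑ j, D i j * (X j - C (y j)) := by
  classical
  have hG : ∀ i, ∃ G : Fin n → MvPolynomial (Fin n) A, (∀ j, DegLT (m - 1) (G j)) ∧
      gA i - C (eval y (gA i)) = ∑ j, G j * (X j - C (y j)) := by
    intro i
    exact exists_divdiff y (degLT_of_totalDegree_lt (by have := hg i; omega))
  choose G hGd hGe using hG
  let L : Fin n → MvPolynomial (Fin n) A := fun i =>
    ∑ k ∈ Finset.range (m - 1), X i ^ k * C (y i) ^ (m - 1 - k)
  have hL : ∀ i, DegLT (m - 1) (L i) := by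
    intro i
    refine DegLT.sum _ fun k hk => ?_
    rw [Finset.mem_range] at hk
    rw [← map_pow]
    have h1 : DegLT (1 * k + 1) (X i ^ k : MvPolynomial (Fin n) A) := DegLT.pow (degLT_X i) k
    have h2 := h1.mul (l := 0) (degLT_C (σ := Fin n) ((y i) ^ (m - 1 - k)))
    exact h2.mono (by omega)
  have hLe : ∀ i, X i ^ m - C (y i) ^ m = (X i ^ (m - 1) + L i) * (X i - C (y i)) := by
    intro i
    have hm : 0 < m := by have := hg i; omega
    rw [← geom_sum₂_mul]
    congr 1
    obtain ⟨m', rfl⟩ : ∃ m', m = m' + 1 := ⟨m - 1, by omega⟩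
    rw [Finset.sum_range_succ, add_comm]
    simp [L]
  refine ⟨Matrix.diagonal (fun i => X i ^ (m - 1)) + (Matrix.diagonal L - Matrix.of G),
    Matrix.diagonal L - Matrix.of G, rfl, ?_, ?_⟩
  · intro i j
    rw [Matrix.sub_apply, Matrix.diagonal_apply, Matrix.of_apply]
    refine DegLT.sub ?_ (hGd i j)
    split_ifs
    · exact hL i
    · exact degLT_zero _
  · intro i
    have h1 : (C (y i) : MvPolynomial (Fin n) A) ^ m = C (eval y (gA i)) := by
      rw [← hy i, map_pow]
    have h2 : X i ^ m - gA i =
        (X i ^ m - C (y i) ^ m) - (gA i - C (eval y (gA i))) := by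
      rw [h1]; ring
    rw [h2, hLe, hGe]
    have h3 : ∀ f : Fin n → MvPolynomial (Fin n) A,
        ∑ j, Matrix.diagonal f i j * (X j - C (y j)) = f i * (X i - C (y i)) := by
      intro f
      rw [Finset.sum_eq_single i]
      · rw [Matrix.diagonal_apply_eq]
      · intro j _ hj
        rw [Matrix.diagonal_apply_ne' _ hj, zero_mul]
      · intro h; exact absurd (Finset.mem_univ _) h
    have h4 := h3 (fun i => X i ^ (m - 1))
    have h5 := h3 L
    have h6 : ∀ j, (Matrix.diagonal (fun i => (X i ^ (m - 1) : MvPolynomial (Fin n) A)) +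
        (Matrix.diagonal L - Matrix.of G) : Matrix (Fin n) (Fin n) _) i j * (X j - C (y j)) =
        Matrix.diagonal (fun i => (X i ^ (m - 1) : MvPolynomial (Fin n) A)) i j *
          (X j - C (y j)) +
        Matrix.diagonal L i j * (X j - C (y j)) - G i j * (X j - C (y j)) := by
      intro j
      rw [Matrix.add_apply, Matrix.sub_apply, Matrix.of_apply]
      ring
    rw [Finset.sum_congr rfl fun j _ => h6 j, Finset.sum_sub_distrib, Finset.sum_add_distrib,
      h4, h5]
    ring

variable {D : Matrix (Fin n) (Fin n) (MvPolynomial (Fin n) A)} {y : Fin n → A}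

/-- Cramer -/
theorem bezout_cramer (hD : ∀ i, X i ^ m - gA i = ∑ j, D i j * (X j - C (y j)))
    (p : MvPolynomial (Fin n) A) : D.det * (p - C (eval y p)) ∈ mideal m gA := by
  classical
  have hcr : ∀ k, D.det * (X k - C (y k)) ∈ mideal m gA := by
    intro k
    have h1 : D.det * (X k - C (y k)) = ∑ i, D.adjugate k i * (X i ^ m - gA i) := by
      simp_rw [hD, Finset.mul_sum]
      rw [Finset.sum_comm]
      have h2 : ∀ j, ∑ i, D.adjugate k i * (D i j * (X j - C (y j))) =
          (if k = j then D.det else 0) * (X j - C (y j)) := by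
        intro j
        have h3 : (D.adjugate * D) k j = (D.det • (1 : Matrix _ _ _)) k j := by
          rw [Matrix.adjugate_mul]
        rw [Matrix.mul_apply, Matrix.smul_apply, Matrix.one_apply, smul_eq_mul] at h3
        have h4 : (if k = j then D.det else 0) = D.det * (if k = j then 1 else 0) := by
          split_ifs <;> simp
        rw [h4, ← h3, Finset.sum_mul]
        refine Finset.sum_congr rfl fun i _ => ?_
        ring
      rw [Finset.sum_congr rfl fun j _ => h2 j]
      simp
    rw [h1]
    exact Ideal.sum_mem _ fun i _ => Ideal.mul_mem_left _ _ (Ideal.subset_span ⟨i, rfl⟩)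
  obtain ⟨G, -, hG⟩ := exists_divdiff y (k := p.totalDegree)
    (degLT_of_totalDegree_lt (Nat.lt_succ_self p.totalDegree))
  rw [hG, Finset.mul_sum]
  refine Ideal.sum_mem _ fun j _ => ?_
  have : D.det * (G j * (X j - C (y j))) = G j * (D.det * (X j - C (y j))) := by ring
  rw [this]
  exact Ideal.mul_mem_left _ _ (hcr j)

/-- normalisation of the Bezoutian -/
theorem mtau_bezout_det (hg : ∀ i, (gA i).totalDegree < m)
    {E : Matrix (Fin n) (Fin n) (MvPolynomial (Fin n) A)}
    (hDE : D = Matrix.diagonal (fun i => X i ^ (m - 1)) + E)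
    (hE : ∀ i j, DegLT (m - 1) (E i j)) : mtau m gA D.det = 1 := by
  classical
  have hXp : (∏ i : Fin n, X i ^ (m - 1) : MvPolynomial (Fin n) A) = monomial (texp m 0) 1 := by
    rw [monomial_eq, Finsupp.prod_fintype _ _ (by simp)]
    simp
  have hlead : DegLT (n * (m - 1)) (D.det - monomial (texp m 0) 1) := by
    rw [← hXp, hDE]
    refine degLT_det_sub _ _ (fun i => ?_) hE
    exact (DegLT.pow (degLT_X i) (m - 1)).mono (by omega)
  have htdeg : (texp m (0 : Fin n → ℕ)).degree = n * (m - 1) := by
    rw [texp_degree]; simp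
  have h1 : DegLT (n * (m - 1) + 1) D.det := by
    have : D.det = (D.det - monomial (texp m 0) 1) + monomial (texp m 0) 1 := by ring
    rw [this]
    refine (hlead.mono (Nat.le_succ _)).add ?_
    have h2 := degLT_monomial (texp m (0 : Fin n → ℕ)) (1 : A)
    rw [htdeg] at h2
    exact h2
  rw [mtau_of_degLT_succ hg h1]
  have h2 := hlead (texp m 0) (le_of_eq htdeg.symm)
  rw [coeff_sub, coeff_monomial, if_pos rfl, sub_eq_zero] at h2
  exact h2

/-- reproducing property -/
theorem mtau_bezout_mul (hg : ∀ i, (gA i).totalDegree < m)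
    (hD : ∀ i, X i ^ m - gA i = ∑ j, D i j * (X j - C (y j)))
    (h1 : mtau m gA D.det = 1) (p : MvPolynomial (Fin n) A) :
    mtau m gA (D.det * p) = eval y p := by
  have h2 := mtau_of_mem hg (bezout_cramer hD p)
  rw [mul_sub, ← mtauL_apply hg, map_sub, sub_eq_zero, mtauL_apply, mtauL_apply] at h2
  rw [h2, mul_comm, mtau_C_mul hg, h1, mul_one]

/-- the Bezoutian on the diagonal is the Jacobian -/
theorem eval_bezout_det (hD : ∀ i, X i ^ m - gA i = ∑ j, D i j * (X j - C (y j))) :
    eval y D.det = eval y (mjac m gA) := by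
  classical
  rw [mjac, RingHom.map_det, RingHom.map_det]
  congr 1
  ext1 i j
  rw [RingHom.mapMatrix_apply, RingHom.mapMatrix_apply, Matrix.map_apply, Matrix.map_apply,
    Matrix.of_apply, hD i, map_sum, map_sum]
  have h3 : ∀ k, eval y (pderiv j (D i k * (X k - C (y k)))) =
      if k = j then eval y (D i k) else 0 := by
    intro k
    rw [Derivation.leibniz, smul_eq_mul, smul_eq_mul, map_add, map_mul, map_mul]
    have h4 : eval y (X k - C (y k) : MvPolynomial (Fin n) A) = 0 := by simp
    rw [h4, zero_mul, add_zero, map_sub, pderiv_C, sub_zero, pderiv_X]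
    by_cases hk : k = j
    · subst hk; simp
    · rw [if_neg hk, Pi.single_eq_of_ne hk, map_zero, mul_zero]
  rw [Finset.sum_congr rfl fun k _ => h3 k]
  simp

end Sol

section Alg

variable {A : Type*} [CommRing A] [Algebra R A]

theorem eval_map_algHom (π : MvPolynomial (Fin n) R →ₐ[R] A) (p : MvPolynomial (Fin n) R) :
    eval (fun j => π (X j)) (map (algebraMap R A) p) = π p := by
  rw [eval_map, ← aeval_def]
  congr 1
  exact (aeval_unique π).symm

theorem msol_algHom (π : MvPolynomial (Fin n) R →ₐ[R] A) (hπ : ∀ p, π p = 0 ↔ p ∈ mideal m g) :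
    msol m (fun i => map (algebraMap R A) (g i)) (fun j => π (X j)) := by
  intro i
  have h1 := (hπ (X i ^ m - g i)).mpr (Ideal.subset_span ⟨i, rfl⟩)
  rw [map_sub, sub_eq_zero, map_pow] at h1
  rw [eval_map_algHom]
  exact h1

theorem trace_eq_mtau_aux [Module.Free R A] [Module.Finite R A]
    (hg : ∀ i, (g i).totalDegree < m) (π : MvPolynomial (Fin n) R →ₐ[R] A)
    (hπ : ∀ p, π p = 0 ↔ p ∈ mideal m g) (hs : Function.Surjective π)
    (h : MvPolynomial (Fin n) R) :
    Algebra.trace R A (π h) = mtau m g (h * mjac m g) := by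
  classical
  have hgA := totalDegree_map_lt (algebraMap R A) hg
  obtain ⟨D, E, hDE, hE, hD⟩ := exists_bezout hgA (msol_algHom π hπ)
  have h1 := mtau_bezout_det hgA hDE hE
  set y : Fin n → A := fun j => π (X j) with hy
  set Δ := D.det with hΔ
  -- the functional on the quotient
  have key : ∀ p q : MvPolynomial (Fin n) R, π p = π q → mtau m g p = mtau m g q := by
    intro p q h
    have h2 : π (p - q) = 0 := by rw [map_sub, h, sub_self]
    have := mtau_of_mem hg ((hπ _).mp h2)
    rw [← mtauL_apply hg, map_sub, sub_eq_zero] at this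
    exact this
  have hinv : ∀ a, π (Function.surjInv hs a) = a := Function.surjInv_eq hs
  let T : A →ₗ[R] R :=
    { toFun := fun q => mtau m g (Function.surjInv hs q)
      map_add' := fun a b => by
        rw [← mtau_add hg]
        apply key
        rw [map_add, hinv, hinv, hinv]
      map_smul' := fun a b => by
        rw [RingHom.id_apply, smul_eq_mul, ← mtau_C_mul hg]
        apply key
        rw [← smul_eq_C_mul, map_smul, hinv, hinv] }
  have hT : ∀ p, T (π p) = mtau m g p := fun p => key _ _ (hinv _)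
  have hexp : ∀ c : MvPolynomial (Fin n) R, π c =
      ∑ s ∈ Δ.support, mtau m g (monomial s 1 * c) • coeff s Δ := by
    intro c
    rw [← eval_map_algHom π c, ← mtau_bezout_mul hgA hD h1]
    conv_lhs => rw [← hΔ, Δ.as_sum]
    rw [Finset.sum_mul, ← mtauL_apply hgA, map_sum]
    refine Finset.sum_congr rfl fun s _ => ?_
    have h1 : (monomial s (coeff s Δ) : MvPolynomial (Fin n) A) * map (algebraMap R A) c =
        C (coeff s Δ) * map (algebraMap R A) (monomial s 1 * c) := by
      rw [map_mul, map_monomial, map_one, ← mul_assoc, C_mul_monomial, mul_one]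
    rw [mtauL_apply, h1, mtau_C_mul hgA, mtau_map _ hg, Algebra.smul_def, mul_comm]
  have hJ : ∑ s ∈ Δ.support, coeff s Δ * π (monomial s 1) = π (mjac m g) := by
    rw [← eval_map_algHom π (mjac m g), ← mjac_map, ← eval_bezout_det hD]
    conv_rhs => rw [← hΔ, Δ.as_sum]
    rw [map_sum]
    refine Finset.sum_congr rfl fun s _ => ?_
    rw [← eval_map_algHom π (monomial s 1), map_monomial, map_one]
    have h2 : (monomial s (coeff s Δ) : MvPolynomial (Fin n) A) =
        C (coeff s Δ) * monomial s 1 := by rw [C_mul_monomial, mul_one]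
    rw [h2, map_mul, eval_C]
  have hmul : Algebra.lmul R A (π h) =
      ∑ s ∈ Δ.support, (T ∘ₗ (Algebra.lmul R A (π (monomial s 1 * h)))).smulRight
          (coeff s Δ) := by
    ext q
    obtain ⟨c, rfl⟩ := hs q
    have h1 : Algebra.lmul R A (π h) (π c) = π (h * c) := by
      rw [map_mul]; rfl
    rw [h1, hexp, LinearMap.sum_apply]
    refine Finset.sum_congr rfl fun s _ => ?_
    rw [LinearMap.smulRight_apply, LinearMap.comp_apply]
    have h2 : Algebra.lmul R A (π (monomial s 1 * h)) (π c) = π (monomial s 1 * (h * c)) := by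
      rw [← mul_assoc, map_mul π (monomial s 1 * h) c]; rfl
    rw [h2, hT]
  rw [Algebra.trace_apply, hmul, map_sum, ← hT, map_mul, ← hJ, Finset.mul_sum, map_sum]
  refine Finset.sum_congr rfl fun s _ => ?_
  rw [LinearMap.trace_smulRight, LinearMap.comp_apply]
  congr 1
  rw [Algebra.coe_lmul_eq_mul, LinearMap.mul_apply', map_mul]
  ring

end Alg

/-- **Trace formula** for the residue functional. -/
theorem mtrace_eq_mtau (hg : ∀ i, (g i).totalDegree < m) (h : MvPolynomial (Fin n) R) :
    mtrace m g h = mtau m g (h * mjac m g) := by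
  have hfree := mQ_free hg
  have hfin := mQ_finite hg
  exact trace_eq_mtau_aux hg (Ideal.Quotient.mkₐ R (mideal m g))
    (fun p => Ideal.Quotient.eq_zero_iff_mem) Ideal.Quotient.mk_surjective h

/-- **Trace formula** (Jacobi / Euler / Scheja–Storch) for monic systems. -/
theorem mtrace_formula (hg : ∀ i, (g i).totalDegree < m) (h : MvPolynomial (Fin n) R) (K : ℕ)
    (hK : (h * mjac m g).totalDegree < K) :
    mtrace m g h = ∑ κ : Fin n → Fin K,
      coeff (Finsupp.equivFunOnFinite.symm fun i => (m - 1) + m * (κ i : ℕ))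
        (h * mjac m g * ∏ i, g i ^ (κ i : ℕ)) := by
  rw [mtrace_eq_mtau hg, mtau_eq_sum hg (degLT_of_totalDegree_lt hK)]
  symm
  refine Finset.sum_bij (fun κ _ => fun i => (κ i : ℕ)) ?_ ?_ ?_ ?_
  · intro κ _
    rw [Fintype.mem_piFinset]
    intro i
    rw [Finset.mem_range]
    exact (κ i).2
  · intro κ _ κ' _ h
    ext i
    exact congrFun h i
  · intro κ hκ
    rw [Fintype.mem_piFinset] at hκ
    exact ⟨fun i => ⟨κ i, Finset.mem_range.mp (hκ i)⟩, Finset.mem_univ _, rfl⟩
  · intro κ _
    rfl

end Crest.Agent.R316
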